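import Mathlib

/-! P319, block SC: coherent configurations with `m` levels. Interface: definitions and the
statements of the blocks of the combinatorial theorem `m log m ≤ C log n`. -/

namespace Vale.Agent.P319.SC

open Finset

/-- the tuple `(v_0, …, v_{k-1}, z, z, …)` -/
def ins {V : Type} (k : ℕ) (v : ℕ → V) (z : V) : ℕ → V := fun i => if i < k then v i else z

/-- the tuple `(x, v_0, v_1, …)` -/
def cns {V : Type} (x : V) (v : ℕ → V) : ℕ → V := fun i => Nat.casesOn i x v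

/-- the permutation `(k, k+1)` -/
def sw (k : ℕ) : ℕ → ℕ := fun i => if i = k then k + 1 else if i = k + 1 then k else i

/-- the rotation `k → k+1 → k+2 → k` -/
def ro (k : ℕ) : ℕ → ℕ := fun i =>
  if i = k then k + 1 else if i = k + 1 then k + 2 else if i = k + 2 then k else i

/-- A coherent configuration with `m` levels on `V`: `col k v` is the colour of the tuple
`(v_0, …, v_{k-1})`, `k ≤ m`. -/
structure Cfg (V ι : Type) [Fintype V] [DecidableEq V] [DecidableEq ι] (m : ℕ) where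
  /-- the colour of `(v_0, …, v_{k-1})` -/
  col : ℕ → (ℕ → V) → ι
  dep : ∀ k, k ≤ m → ∀ v w : ℕ → V, (∀ i < k, v i = w i) → col k v = col k w
  /-- substitution -/
  sub : ∀ j k, j ≤ m → k ≤ m → ∀ f : ℕ → ℕ, (∀ i < j, f i < k) → ∀ v w : ℕ → V,
    col k v = col k w → col j (v ∘ f) = col j (w ∘ f)
  /-- the number of extensions of a tuple is determined by its colour -/
  ext : ∀ k, k < m → ∀ v w : ℕ → V, col k v = col k w → ∀ i : ι,
    (univ.filter fun z => col (k + 1) (ins k v z) = i).card =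
      (univ.filter fun z => col (k + 1) (ins k w z) = i).card
  /-- the colour determines the equalities between the coordinates -/
  eqv : ∀ k, k ≤ m → ∀ v w : ℕ → V, col k v = col k w → ∀ i < k, ∀ j < k, v i = v j → w i = w j
  /-- no symmetries of order two -/
  anti2 : ∀ k, k + 2 ≤ m → ∀ v : ℕ → V, v k ≠ v (k + 1) → col (k + 2) (v ∘ sw k) ≠ col (k + 2) v
  /-- no symmetries of order three -/
  anti3 : ∀ k, k + 3 ≤ m → ∀ v : ℕ → V, v k ≠ v (k + 1) → v k ≠ v (k + 2) → v (k + 1) ≠ v (k + 2) →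
    col (k + 3) (v ∘ ro k) ≠ col (k + 3) v
  /-- no cyclic covers: over a base `u` of `k` points, let `i` be a colour of pairs, all pairs with
  this colour being pairs of points of the same colour; there is no function `h` with values modulo a
  prime `r` and `h b = h a + 1` for all pairs `(a, b)` with colour `i`. -/
  cyc : ∀ k, k + 3 ≤ m → ∀ (u : ℕ → V) (i : ι) (r : ℕ) (h : V → ZMod r), r.Prime →
    (∃ a b, col (k + 2) (ins (k + 1) (ins k u a) b) = i) →
    (∀ a b, col (k + 2) (ins (k + 1) (ins k u a) b) = i →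
      col (k + 1) (ins k u a) = col (k + 1) (ins k u b)) →
    ¬ ∀ a b, col (k + 2) (ins (k + 1) (ins k u a) b) = i → h b = h a + 1

variable {V ι : Type} [Fintype V] [DecidableEq V] [DecidableEq ι] {m : ℕ}

@[simp] theorem cns_zero (x : V) (v : ℕ → V) : cns x v 0 = x := rfl
@[simp] theorem cns_succ (x : V) (v : ℕ → V) (i : ℕ) : cns x v (i + 1) = v i := rfl

theorem cns_ins (x : V) (v : ℕ → V) (k : ℕ) (z : V) : cns x (ins k v z) = ins (k + 1) (cns x v) z := by
  funext i
  cases i with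
  | zero => simp [ins]
  | succ i => simp [ins, Nat.succ_lt_succ_iff]

/-- fix a point -/
def Cfg.fix (𝒞 : Cfg V ι (m + 1)) (x : V) : Cfg V ι m where
  col k v := 𝒞.col (k + 1) (cns x v)
  dep k hk v w h := 𝒞.dep _ (by omega) _ _ (by
    rintro (_ | i) hi
    · rfl
    · exact h i (by omega))
  sub j k hj hk f hf v w h := by
    have h1 := 𝒞.sub (j + 1) (k + 1) (by omega) (by omega) (fun i => Nat.casesOn i 0 fun i => f i + 1)
      (by
        rintro (_ | i) hi
        · exact Nat.succ_pos _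
        · have := hf i (by omega)
          show f i + 1 < k + 1
          omega) _ _ h
    have e : ∀ v : ℕ → V, cns x v ∘ (fun i => Nat.casesOn i 0 fun i => f i + 1) = cns x (v ∘ f) := by
      intro v
      funext i
      cases i <;> rfl
    rwa [e, e] at h1
  ext k hk v w h i := by
    have h1 := 𝒞.ext (k + 1) (by omega) _ _ h i
    simp only [cns_ins]
    exact h1
  eqv k hk v w h i hi j hj hij := 𝒞.eqv (k + 1) (by omega) _ _ h (i + 1) (by omega) (j + 1)
    (by omega) hij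
  anti2 k hk v hv := by
    have h1 := 𝒞.anti2 (k + 1) (by omega) (cns x v) hv
    have e : cns x v ∘ sw (k + 1) = cns x (v ∘ sw k) := by
      funext i
      cases i with
      | zero => simp [sw]
      | succ i =>
        simp only [Function.comp, sw, cns_succ]
        by_cases h1 : i = k
        · simp [h1]
        · by_cases h2 : i = k + 1
          · simp [h2]
          · simp [h1, h2]
    rwa [e] at h1
  anti3 k hk v h1 h2 h3 := by
    have h4 := 𝒞.anti3 (k + 1) (by omega) (cns x v) h1 h2 h3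
    have e : cns x v ∘ ro (k + 1) = cns x (v ∘ ro k) := by
      funext i
      cases i with
      | zero => simp [ro]
      | succ i =>
        simp only [Function.comp, ro, cns_succ]
        by_cases h1 : i = k
        · simp [h1]
        · by_cases h2 : i = k + 1
          · simp [h2]
          · by_cases h3 : i = k + 2
            · simp [h3]
            · simp [h1, h2, h3]
    rwa [e] at h4
  cyc k hk u i r h hr h1 h2 := by
    simp only [cns_ins] at h1 h2 ⊢
    exact 𝒞.cyc (k + 1) (by omega) (cns x u) i r h hr h1 h2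

/-- the colour of a point -/
def Cfg.c1 (𝒞 : Cfg V ι m) (a : V) : ι := 𝒞.col 1 (fun _ => a)

/-- the colour of a pair -/
def Cfg.c2 (𝒞 : Cfg V ι m) (a b : V) : ι := 𝒞.col 2 (ins 1 (fun _ => a) b)

/-- the class (fibre) of the points with colour `ρ` -/
def Cfg.cls (𝒞 : Cfg V ι m) (ρ : ι) : Finset V := univ.filter fun a => 𝒞.c1 a = ρ

/-- the colours of the pairs between two classes -/
def Cfg.rels (𝒞 : Cfg V ι m) (ρ σ : ι) : Finset ι :=
  ((𝒞.cls ρ) ×ˢ (𝒞.cls σ)).image fun ab => 𝒞.c2 ab.1 ab.2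

/-- the matrix `A` is constant on the colours of pairs -/
def Cfg.Inv2 (𝒞 : Cfg V ι m) {K : Type*} (A : Matrix V V K) : Prop :=
  ∀ a b a' b', 𝒞.c2 a b = 𝒞.c2 a' b' → A a b = A a' b'

/-- `A` is nontrivial: the sums of the rows over every class vanish -/
def Cfg.Non (𝒞 : Cfg V ι m) {K : Type*} [AddCommMonoid K] (A : Matrix V V K) : Prop :=
  ∀ (a : V) (ρ : ι), ∑ b ∈ 𝒞.cls ρ, A a b = 0

/-! ### Statements of the blocks -/

/-- **block DBL** (characteristic two): the rank at least doubles -/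
def DblStmt : Prop := ∀ (V ι : Type) [Fintype V] [DecidableEq V] [DecidableEq ι] (m : ℕ)
  (𝒞 : Cfg V ι (m + 1)), 5 ≤ m → ∀ (K : Type) [Field K] [IsAlgClosed K] [CharP K 2]
  (A : Matrix V V K), 𝒞.Inv2 A → 𝒞.Non A → A ≠ 0 →
    ∃ (x : V) (B : Matrix V V K), (𝒞.fix x).Inv2 B ∧ (𝒞.fix x).Non B ∧ B ≠ 0 ∧
      2 * B.rank + 1 ≤ A.rank

/-- **block DEG**: over the real numbers, the rank of nontrivial matrices is exponentially large -/
def DegStmt : Prop := ∀ (V ι : Type) [Fintype V] [DecidableEq V] [DecidableEq ι] (m : ℕ)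
  (𝒞 : Cfg V ι (m + 5)) (A : Matrix V V ℝ), 𝒞.Inv2 A → 𝒞.Non A → A ≠ 0 → 2 ^ m ≤ A.rank

/-- **block VAN**: if the rank of all nontrivial matrices is at least `D`, all types `(R, S, R)`
occur if `|X| ^ 3 < D |R(v)| ^ 3` and `R(v)` is not greater than `S(v)`. -/
def VanStmt : Prop := ∀ (V ι : Type) [Fintype V] [DecidableEq V] [DecidableEq ι] (m : ℕ)
  (𝒞 : Cfg V ι m), 3 ≤ m → ∀ D : ℕ,
  (∀ A : Matrix V V ℝ, 𝒞.Inv2 A → 𝒞.Non A → A ≠ 0 → D ≤ A.rank) →
  ∀ (ρ R S : ι) (v : V), 𝒞.c1 v = ρ → R ∈ 𝒞.rels ρ ρ → S ∈ 𝒞.rels ρ ρ →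
    (univ.filter fun z => 𝒞.c2 v z = R).card ≤ (univ.filter fun z => 𝒞.c2 v z = S).card →
    (𝒞.cls ρ).card ^ 3 < D * (univ.filter fun z => 𝒞.c2 v z = R).card ^ 3 →
    ∃ x y : V, 𝒞.c2 v x = R ∧ 𝒞.c2 x y = S ∧ 𝒞.c2 y v = R

/-- **block AM**: the arithmetic mean inequality -/
def AMStmt : Prop := ∀ (V ι : Type) [Fintype V] [DecidableEq V] [DecidableEq ι] (m : ℕ)
  (𝒞 : Cfg V ι m), 3 ≤ m → ∀ ρ σ : ι,
    2 * (𝒞.rels ρ σ).card ≤ (𝒞.rels ρ ρ).card + (𝒞.rels σ σ).card

/-- **block GRO**: one step of the chain. `X` = the class of `v`. Either a big gain, or the rank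
increases by two. (From AM, VAN, DEG.) -/
def GroStmt : Prop := ∀ (V ι : Type) [Fintype V] [DecidableEq V] [DecidableEq ι] (m : ℕ)
  (𝒞 : Cfg V ι (m + 6)) (ρ : ι), 2 ≤ (𝒞.cls ρ).card →
  ∃ (v : V) (σ : ι), 𝒞.c1 v = ρ ∧ 2 ≤ ((𝒞.fix v).cls σ).card ∧
    3 ≤ ((𝒞.fix v).rels σ σ).card ∧
    ((𝒞.rels ρ ρ).card - 1) * ((𝒞.fix v).cls σ).card ≤ (𝒞.cls ρ).card ∧
    (2 ^ (m + 1) * ((𝒞.fix v).cls σ).card ^ 3 ≤ (𝒞.cls ρ).card ^ 3 ∨
      (𝒞.rels ρ ρ).card + 2 ≤ ((𝒞.fix v).rels σ σ).card)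

/-- **TARGET of the combinatorial part**: a homogeneous configuration with `m` levels on `n ≥ 2`
points has `m log m ≤ C log n`. -/
def MainStmt : Prop := ∃ C : ℕ, ∀ (V ι : Type) [Fintype V] [DecidableEq V] [DecidableEq ι] (m : ℕ)
  (𝒞 : Cfg V ι m), 2 ≤ Fintype.card V → (∀ a b : V, 𝒞.c1 a = 𝒞.c1 b) →
    m * Nat.log 2 m ≤ C * Nat.log 2 (Fintype.card V)

end Vale.Agent.P319.SC
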