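import Vale.Agent.P319.SC.Iface

/-! P319, block SC, package GRO: one step of the chain. -/

namespace Vale.Agent.P319.SC

open Finset

namespace Gro

variable {V ι : Type} [Fintype V] [DecidableEq V] [DecidableEq ι] {m : ℕ}

/-- the colour of a triple -/
def c3 (𝒞 : Cfg V ι m) (a b c : V) : ι := 𝒞.col 3 (cns a (cns b fun _ => c))

theorem c2_eq (𝒞 : Cfg V ι m) (a b : V) : 𝒞.c2 a b = 𝒞.col 2 (cns a fun _ => b) := by
  unfold Cfg.c2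
  congr 1
  funext i
  cases i <;> simp [ins]

theorem fix_c1 (𝒞 : Cfg V ι (m + 1)) (v z : V) : (𝒞.fix v).c1 z = 𝒞.c2 v z := by
  rw [c2_eq]; rfl

theorem fix_c2 (𝒞 : Cfg V ι (m + 1)) (v x y : V) : (𝒞.fix v).c2 x y = c3 𝒞 v x y := by
  rw [c2_eq]; rfl

theorem mem_cls (𝒞 : Cfg V ι m) (ρ : ι) (a : V) : a ∈ 𝒞.cls ρ ↔ 𝒞.c1 a = ρ := by
  simp [Cfg.cls]

theorem fix_cls (𝒞 : Cfg V ι (m + 1)) (v : V) (R : ι) :
    (𝒞.fix v).cls R = univ.filter fun z => 𝒞.c2 v z = R := by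
  ext z
  simp [Cfg.cls, fix_c1]

theorem c1_of_c2 (𝒞 : Cfg V ι m) (hm : 2 ≤ m) {a b a' b' : V} (h : 𝒞.c2 a b = 𝒞.c2 a' b') :
    𝒞.c1 a = 𝒞.c1 a' := by
  rw [c2_eq, c2_eq] at h
  have := 𝒞.sub 1 2 (by omega) hm (fun _ => 0) (by intros; omega) _ _ h
  exact this

theorem c1_of_c2' (𝒞 : Cfg V ι m) (hm : 2 ≤ m) {a b a' b' : V} (h : 𝒞.c2 a b = 𝒞.c2 a' b') :
    𝒞.c1 b = 𝒞.c1 b' := by
  rw [c2_eq, c2_eq] at h
  have := 𝒞.sub 1 2 (by omega) hm (fun _ => 1) (by intros; omega) _ _ h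
  exact this

theorem c2_swap (𝒞 : Cfg V ι m) (hm : 2 ≤ m) {a b a' b' : V} (h : 𝒞.c2 a b = 𝒞.c2 a' b') :
    𝒞.c2 b a = 𝒞.c2 b' a' := by
  rw [c2_eq, c2_eq] at h ⊢
  have := 𝒞.sub 2 2 hm hm (fun i => 1 - i) (by intro i hi; omega) _ _ h
  have e : ∀ a b : V, (cns a fun _ => b) ∘ (fun i => 1 - i) = (cns b fun _ => a) := by
    intro a b
    funext i
    rcases i with _ | i
    · rfl
    · show cns a (fun _ => b) (1 - (i + 1)) = a
      rw [show 1 - (i + 1) = 0 by omega]; rfl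
  rwa [e, e] at this

theorem c2_diag (𝒞 : Cfg V ι m) (hm : 2 ≤ m) {a a' : V} (h : 𝒞.c1 a = 𝒞.c1 a') :
    𝒞.c2 a a = 𝒞.c2 a' a' := by
  rw [c2_eq, c2_eq]
  have := 𝒞.sub 2 1 hm (by omega) (fun _ => 0) (by intros; omega) _ _ h
  have e : ∀ a : V, (cns a fun _ => a) = fun _ => a := by
    intro a
    funext i
    cases i <;> rfl
  rw [e, e]
  exact this

theorem eq_of_c2 (𝒞 : Cfg V ι m) (hm : 2 ≤ m) {a b a' b' : V} (h : 𝒞.c2 a b = 𝒞.c2 a' b')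
    (hab : a = b) : a' = b' := by
  rw [c2_eq, c2_eq] at h
  exact 𝒞.eqv 2 hm _ _ h 0 (by omega) 1 (by omega) hab

theorem ext1 (𝒞 : Cfg V ι m) (hm : 2 ≤ m) {a a' : V} (h : 𝒞.c1 a = 𝒞.c1 a') (i : ι) :
    (univ.filter fun z => 𝒞.c2 a z = i).card = (univ.filter fun z => 𝒞.c2 a' z = i).card :=
  𝒞.ext 1 (by omega) _ _ h i

theorem ext1' (𝒞 : Cfg V ι m) (hm : 2 ≤ m) {a a' : V} (h : 𝒞.c1 a = 𝒞.c1 a') (b : V) :
    ∃ b', 𝒞.c2 a' b' = 𝒞.c2 a b := by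
  have h1 := ext1 𝒞 hm h (𝒞.c2 a b)
  have h2 : 0 < (univ.filter fun z => 𝒞.c2 a z = 𝒞.c2 a b).card :=
    card_pos.2 ⟨b, by simp⟩
  rw [h1] at h2
  obtain ⟨b', hb'⟩ := card_pos.1 h2
  exact ⟨b', by simpa using hb'⟩

theorem ext2' (𝒞 : Cfg V ι m) (hm : 3 ≤ m) {a b a' b' : V} (h : 𝒞.c2 a b = 𝒞.c2 a' b') (c : V) :
    ∃ c', c3 𝒞 a' b' c' = c3 𝒞 a b c := by
  rw [c2_eq, c2_eq] at h
  have h1 := 𝒞.ext 2 (by omega) _ _ h (c3 𝒞 a b c)
  have e : ∀ a b c : V, ins 2 (cns a fun _ => b) c = cns a (cns b fun _ => c) := by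
    intro a b c
    funext i
    rcases i with _ | _ | i
    · rfl
    · rfl
    · simp [ins]
  simp only [e] at h1
  have h2 : 0 < (univ.filter fun z => 𝒞.col 3 (cns a (cns b fun _ => z)) = c3 𝒞 a b c).card :=
    card_pos.2 ⟨c, mem_filter.2 ⟨mem_univ _, rfl⟩⟩
  rw [h1] at h2
  obtain ⟨c', hc'⟩ := card_pos.1 h2
  exact ⟨c', (mem_filter.1 hc').2⟩

theorem c2_of_c3_12 (𝒞 : Cfg V ι m) (hm : 3 ≤ m) {a b c a' b' c' : V}
    (h : c3 𝒞 a b c = c3 𝒞 a' b' c') : 𝒞.c2 a b = 𝒞.c2 a' b' := by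
  have := 𝒞.sub 2 3 (by omega) hm (fun i => if i = 0 then 0 else 1)
    (by intro i hi; split_ifs <;> omega) _ _ h
  rw [c2_eq, c2_eq]
  have e : ∀ a b c : V, (cns a (cns b fun _ => c)) ∘ (fun i => if i = 0 then 0 else 1) =
      cns a fun _ => b := by
    intro a b c
    funext i
    rcases i with _ | i <;> simp
  rwa [e, e] at this

theorem c2_of_c3_13 (𝒞 : Cfg V ι m) (hm : 3 ≤ m) {a b c a' b' c' : V}
    (h : c3 𝒞 a b c = c3 𝒞 a' b' c') : 𝒞.c2 a c = 𝒞.c2 a' c' := by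
  have := 𝒞.sub 2 3 (by omega) hm (fun i => if i = 0 then 0 else 2)
    (by intro i hi; split_ifs <;> omega) _ _ h
  rw [c2_eq, c2_eq]
  have e : ∀ a b c : V, (cns a (cns b fun _ => c)) ∘ (fun i => if i = 0 then 0 else 2) =
      cns a fun _ => c := by
    intro a b c
    funext i
    rcases i with _ | i <;> simp
  rwa [e, e] at this

theorem c2_of_c3_23 (𝒞 : Cfg V ι m) (hm : 3 ≤ m) {a b c a' b' c' : V}
    (h : c3 𝒞 a b c = c3 𝒞 a' b' c') : 𝒞.c2 b c = 𝒞.c2 b' c' := by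
  have := 𝒞.sub 2 3 (by omega) hm (fun i => if i = 0 then 1 else 2)
    (by intro i hi; split_ifs <;> omega) _ _ h
  rw [c2_eq, c2_eq]
  have e : ∀ a b c : V, (cns a (cns b fun _ => c)) ∘ (fun i => if i = 0 then 1 else 2) =
      cns b fun _ => c := by
    intro a b c
    funext i
    rcases i with _ | i <;> simp
  rwa [e, e] at this

theorem c2_ne_swap (𝒞 : Cfg V ι m) (hm : 2 ≤ m) {a b : V} (h : a ≠ b) :
    𝒞.c2 b a ≠ 𝒞.c2 a b := by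
  have := 𝒞.anti2 0 (by omega) (cns a fun _ => b) h
  rw [c2_eq, c2_eq]
  intro h1
  apply this
  rw [← h1]
  refine 𝒞.dep _ (by omega) _ _ ?_
  intro i hi
  rcases i with _ | _ | i
  · rfl
  · rfl
  · omega

theorem c3_ne_rot (𝒞 : Cfg V ι m) (hm : 3 ≤ m) {a b c : V} (h1 : a ≠ b) (h2 : a ≠ c) (h3 : b ≠ c) :
    c3 𝒞 b c a ≠ c3 𝒞 a b c := by
  have := 𝒞.anti3 0 (by omega) (cns a (cns b fun _ => c)) h1 h2 h3
  unfold c3
  intro h
  apply this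
  rw [← h]
  refine 𝒞.dep _ (by omega) _ _ ?_
  intro i hi
  rcases i with _ | _ | _ | i
  · rfl
  · rfl
  · rfl
  · omega

/-! ### relations of a class -/

theorem mem_rels (𝒞 : Cfg V ι m) (ρ σ R : ι) :
    R ∈ 𝒞.rels ρ σ ↔ ∃ a b, 𝒞.c1 a = ρ ∧ 𝒞.c1 b = σ ∧ 𝒞.c2 a b = R := by
  simp only [Cfg.rels, mem_image, mem_product, mem_cls, Prod.exists]
  constructor
  · rintro ⟨a, b, ⟨h1, h2⟩, h3⟩
    exact ⟨a, b, h1, h2, h3⟩
  · rintro ⟨a, b, h1, h2, h3⟩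
    exact ⟨a, b, ⟨h1, h2⟩, h3⟩

/-- every relation of a class starts at every point of the class -/
theorem exists_of_rels (𝒞 : Cfg V ι m) (hm : 2 ≤ m) {ρ σ R : ι} (hR : R ∈ 𝒞.rels ρ σ) {v : V}
    (hv : 𝒞.c1 v = ρ) : ∃ b, 𝒞.c1 b = σ ∧ 𝒞.c2 v b = R := by
  obtain ⟨a, b, h1, h2, h3⟩ := (mem_rels 𝒞 ρ σ R).1 hR
  obtain ⟨b', hb'⟩ := ext1' 𝒞 hm (h1.trans hv.symm) b
  exact ⟨b', by rw [c1_of_c2' 𝒞 hm hb', h2], by rw [hb', h3]⟩

/-- the transposed colour -/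
noncomputable def tr (𝒞 : Cfg V ι m) (R : ι) : ι :=
  open Classical in
  if h : ∃ ab : V × V, 𝒞.c2 ab.1 ab.2 = R then 𝒞.c2 h.choose.2 h.choose.1 else R

theorem tr_c2 (𝒞 : Cfg V ι m) (hm : 2 ≤ m) (a b : V) : tr 𝒞 (𝒞.c2 a b) = 𝒞.c2 b a := by
  have h : ∃ ab : V × V, 𝒞.c2 ab.1 ab.2 = 𝒞.c2 a b := ⟨(a, b), rfl⟩
  unfold tr
  rw [dif_pos h]
  exact c2_swap 𝒞 hm h.choose_spec

theorem tr_mem (𝒞 : Cfg V ι m) (hm : 2 ≤ m) {ρ R : ι} (hR : R ∈ 𝒞.rels ρ ρ) :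
    tr 𝒞 R ∈ 𝒞.rels ρ ρ := by
  obtain ⟨a, b, h1, h2, rfl⟩ := (mem_rels 𝒞 ρ ρ R).1 hR
  rw [tr_c2 𝒞 hm]
  exact (mem_rels 𝒞 ρ ρ _).2 ⟨b, a, h2, h1, rfl⟩

/-- the rank of a class is odd -/
theorem odd_rels (𝒞 : Cfg V ι m) (hm : 2 ≤ m) {ρ : ι} {v : V} (hv : 𝒞.c1 v = ρ) :
    Odd (𝒞.rels ρ ρ).card := by
  have hd : 𝒞.c2 v v ∈ 𝒞.rels ρ ρ := (mem_rels 𝒞 ρ ρ _).2 ⟨v, v, hv, hv, rfl⟩
  have key : ∑ x ∈ (𝒞.rels ρ ρ).erase (𝒞.c2 v v), (1 : ZMod 2) = 0 := by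
    have hne : ∀ R ∈ (𝒞.rels ρ ρ).erase (𝒞.c2 v v), ∃ a b, 𝒞.c1 a = ρ ∧ 𝒞.c1 b = ρ ∧
        𝒞.c2 a b = R ∧ a ≠ b := by
      intro R hR
      obtain ⟨a, b, h1, h2, h3⟩ := (mem_rels 𝒞 ρ ρ R).1 (mem_of_mem_erase hR)
      refine ⟨a, b, h1, h2, h3, ?_⟩
      rintro rfl
      apply ne_of_mem_erase hR
      rw [← h3]
      exact c2_diag 𝒞 hm (h1.trans hv.symm)
    refine Finset.sum_involution (fun R _ => tr 𝒞 R) ?_ ?_ ?_ ?_
    · intros; exact CharTwo.add_self_eq_zero _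
    · intro R hR _
      obtain ⟨a, b, h1, h2, rfl, h4⟩ := hne R hR
      rw [tr_c2 𝒞 hm]
      exact c2_ne_swap 𝒞 hm h4
    · intro R hR
      refine mem_erase.2 ⟨?_, tr_mem 𝒞 hm (mem_of_mem_erase hR)⟩
      obtain ⟨a, b, h1, h2, rfl, h4⟩ := hne R hR
      rw [tr_c2 𝒞 hm]
      intro h5
      exact h4 (eq_of_c2 𝒞 hm h5.symm rfl).symm
    · intro R hR
      obtain ⟨a, b, h1, h2, rfl, h4⟩ := hne R hR
      rw [tr_c2 𝒞 hm, tr_c2 𝒞 hm]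
  rw [Finset.sum_const, nsmul_eq_mul, mul_one, ZMod.natCast_eq_zero_iff_even] at key
  rw [← card_erase_add_one hd]
  exact key.add_one

theorem card_in (𝒞 : Cfg V ι m) (hm : 2 ≤ m) {ρ R : ι} (hR : R ∈ 𝒞.rels ρ ρ) {v : V}
    (hv : 𝒞.c1 v = ρ) : (univ.filter fun z => 𝒞.c2 z v = R).card =
      (univ.filter fun z => 𝒞.c2 v z = R).card := by
  have hX : ∀ a b, 𝒞.c2 a b = R → 𝒞.c1 a = ρ ∧ 𝒞.c1 b = ρ := by
    intro a b h
    obtain ⟨a', b', h1, h2, h3⟩ := (mem_rels 𝒞 ρ ρ R).1 hR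
    exact ⟨(c1_of_c2 𝒞 hm (h.trans h3.symm)).trans h1, (c1_of_c2' 𝒞 hm (h.trans h3.symm)).trans h2⟩
  have e1 : ∑ a ∈ 𝒞.cls ρ, (univ.filter fun z => 𝒞.c2 a z = R).card =
      (𝒞.cls ρ).card * (univ.filter fun z => 𝒞.c2 v z = R).card := by
    rw [Finset.sum_const_nat]
    intro a ha
    exact ext1 𝒞 hm (((mem_cls 𝒞 ρ a).1 ha).trans hv.symm) R
  have e2 : ∑ a ∈ 𝒞.cls ρ, (univ.filter fun z => 𝒞.c2 z a = R).card =
      (𝒞.cls ρ).card * (univ.filter fun z => 𝒞.c2 z v = R).card := by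
    rw [Finset.sum_const_nat]
    intro a ha
    have e3 : ∀ b, (univ.filter fun z => 𝒞.c2 z b = R) =
        univ.filter fun z => 𝒞.c2 b z = tr 𝒞 R := by
      intro b
      ext z
      simp only [mem_filter, mem_univ, true_and]
      constructor
      · rintro rfl
        rw [tr_c2 𝒞 hm]
      · intro h
        obtain ⟨a', b', h1, h2, h3⟩ := (mem_rels 𝒞 ρ ρ R).1 hR
        rw [← h3, tr_c2 𝒞 hm] at h
        rw [← h3]
        exact c2_swap 𝒞 hm h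
    rw [e3, e3]
    exact ext1 𝒞 hm (((mem_cls 𝒞 ρ a).1 ha).trans hv.symm) _
  have e4 : ∑ a ∈ 𝒞.cls ρ, (univ.filter fun z => 𝒞.c2 a z = R).card =
      ∑ a ∈ 𝒞.cls ρ, (univ.filter fun z => 𝒞.c2 z a = R).card := by
    have f1 : ∀ a, (univ.filter fun z => 𝒞.c2 a z = R) =
        (𝒞.cls ρ).bipartiteAbove (fun a b => 𝒞.c2 a b = R) a := by
      intro a
      ext z
      simp only [mem_filter, mem_univ, true_and, bipartiteAbove, mem_cls]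
      exact ⟨fun h => ⟨(hX _ _ h).2, h⟩, fun h => h.2⟩
    have f2 : ∀ a, (univ.filter fun z => 𝒞.c2 z a = R) =
        (𝒞.cls ρ).bipartiteBelow (fun a b => 𝒞.c2 a b = R) a := by
      intro a
      ext z
      simp only [mem_filter, mem_univ, true_and, bipartiteBelow, mem_cls]
      exact ⟨fun h => ⟨(hX _ _ h).1, h⟩, fun h => h.2⟩
    simp only [f1, f2]
    exact Finset.sum_card_bipartiteAbove_eq_sum_card_bipartiteBelow _
  rw [e1, e2] at e4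
  have hpos : 0 < (𝒞.cls ρ).card := card_pos.2 ⟨v, (mem_cls 𝒞 ρ v).2 hv⟩
  exact (Nat.eq_of_mul_eq_mul_left hpos e4).symm

theorem card_tr (𝒞 : Cfg V ι m) (hm : 2 ≤ m) {ρ R : ι} (hR : R ∈ 𝒞.rels ρ ρ) {v : V}
    (hv : 𝒞.c1 v = ρ) : (univ.filter fun z => 𝒞.c2 v z = tr 𝒞 R).card =
      (univ.filter fun z => 𝒞.c2 v z = R).card := by
  rw [← card_in 𝒞 hm hR hv]
  congr 1
  ext z
  simp only [mem_filter, mem_univ, true_and]
  constructor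
  · intro h
    obtain ⟨a', b', h1, h2, h3⟩ := (mem_rels 𝒞 ρ ρ R).1 hR
    rw [← h3, tr_c2 𝒞 hm] at h
    rw [← h3]
    exact c2_swap 𝒞 hm h
  · rintro rfl
    rw [tr_c2 𝒞 hm]

/-- the class of `v` is the disjoint union of the `R(v)` -/
theorem card_cls (𝒞 : Cfg V ι m) (hm : 2 ≤ m) {ρ : ι} {v : V} (hv : 𝒞.c1 v = ρ) :
    (𝒞.cls ρ).card = ∑ R ∈ 𝒞.rels ρ ρ, (univ.filter fun z => 𝒞.c2 v z = R).card := by
  rw [Finset.card_eq_sum_card_fiberwise (f := fun z => 𝒞.c2 v z) (t := 𝒞.rels ρ ρ)]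
  · refine Finset.sum_congr rfl fun R hR => ?_
    congr 1
    ext z
    simp only [mem_filter, mem_univ, true_and, mem_cls, and_iff_right_iff_imp]
    intro h
    obtain ⟨a', b', h1, h2, h3⟩ := (mem_rels 𝒞 ρ ρ R).1 hR
    exact (c1_of_c2' 𝒞 hm (h.trans h3.symm)).trans h2
  · intro z hz
    exact (mem_rels 𝒞 ρ ρ _).2 ⟨v, z, hv, (mem_cls 𝒞 ρ z).1 hz, rfl⟩

theorem three_rels (𝒞 : Cfg V ι m) (hm : 2 ≤ m) {ρ : ι} (h : 2 ≤ (𝒞.cls ρ).card) :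
    3 ≤ (𝒞.rels ρ ρ).card := by
  obtain ⟨a, ha, b, hb, hab⟩ := Finset.one_lt_card.1 h
  rw [mem_cls] at ha hb
  refine Finset.two_lt_card.2 ⟨𝒞.c2 a a, (mem_rels 𝒞 ρ ρ _).2 ⟨a, a, ha, ha, rfl⟩,
    𝒞.c2 a b, (mem_rels 𝒞 ρ ρ _).2 ⟨a, b, ha, hb, rfl⟩,
    𝒞.c2 b a, (mem_rels 𝒞 ρ ρ _).2 ⟨b, a, hb, ha, rfl⟩, ?_, ?_, ?_⟩
  · intro h1
    exact hab (eq_of_c2 𝒞 hm h1 rfl)
  · intro h1
    exact hab (eq_of_c2 𝒞 hm h1 rfl).symm
  · exact (c2_ne_swap 𝒞 hm hab).symm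

/-! ### no relation of valency one -/

theorem cyc0 (𝒞 : Cfg V ι m) (hm : 3 ≤ m) {a₀ b₀ : V} {r : ℕ} (hr : r.Prime) (h : V → ZMod r)
    (h0 : 𝒞.c1 a₀ = 𝒞.c1 b₀) :
    ¬ ∀ a b, 𝒞.c2 a b = 𝒞.c2 a₀ b₀ → h b = h a + 1 := by
  have e0 : ∀ a : V, ins 0 (fun _ => a₀) a = fun _ => a := by
    intro a
    funext i
    simp [ins]
  have := 𝒞.cyc 0 (by omega) (fun _ => a₀) (𝒞.c2 a₀ b₀) r h hr
    ⟨a₀, b₀, by rw [e0]; rfl⟩ (by
      intro a b hab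
      rw [e0] at hab
      rw [e0, e0]
      have h1 := c1_of_c2 𝒞 (by omega : 2 ≤ m) hab
      have h2 := c1_of_c2' 𝒞 (by omega : 2 ≤ m) hab
      exact h1.trans (h0.trans h2.symm))
  intro hh
  apply this
  intro a b hab
  rw [e0] at hab
  exact hh a b hab

theorem card_ne_one (𝒞 : Cfg V ι m) (hm : 3 ≤ m) {ρ : ι} {v w : V} (hv : 𝒞.c1 v = ρ)
    (hw : 𝒞.c1 w = ρ) (hvw : v ≠ w) : (univ.filter fun z => 𝒞.c2 v z = 𝒞.c2 v w).card ≠ 1 := by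
  intro hk
  set R := 𝒞.c2 v w with hRdef
  have hR : R ∈ 𝒞.rels ρ ρ := (mem_rels 𝒞 ρ ρ _).2 ⟨v, w, hv, hw, rfl⟩
  have hm2 : 2 ≤ m := by omega
  have hX : ∀ a b, 𝒞.c2 a b = R → 𝒞.c1 a = ρ ∧ 𝒞.c1 b = ρ := fun a b h =>
    ⟨(c1_of_c2 𝒞 hm2 h).trans hv, (c1_of_c2' 𝒞 hm2 h).trans hw⟩
  have hout : ∀ a, 𝒞.c1 a = ρ → ∃ b, 𝒞.c2 a b = R ∧ ∀ b', 𝒞.c2 a b' = R → b' = b := by
    intro a ha
    have h1 := ext1 𝒞 hm2 (hv.trans ha.symm) R
    rw [hk] at h1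
    obtain ⟨b, hb⟩ := card_eq_one.1 h1.symm
    refine ⟨b, ?_, ?_⟩
    · have : b ∈ ({b} : Finset V) := mem_singleton_self b
      rw [← hb] at this
      exact (mem_filter.1 this).2
    · intro b' hb'
      have : b' ∈ (univ.filter fun z => 𝒞.c2 a z = R) := mem_filter.2 ⟨mem_univ _, hb'⟩
      rw [hb] at this
      exact mem_singleton.1 this
  have hin : ∀ a a' b, 𝒞.c2 a b = R → 𝒞.c2 a' b = R → a = a' := by
    intro a a' b h1 h2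
    have h3 := card_in 𝒞 hm2 hR (hX _ _ h1).2
    rw [← ext1 𝒞 hm2 (hv.trans (hX _ _ h1).2.symm) R, hk] at h3
    obtain ⟨c, hc⟩ := card_eq_one.1 h3
    have h4 : a ∈ (univ.filter fun z => 𝒞.c2 z b = R) := mem_filter.2 ⟨mem_univ _, h1⟩
    have h5 : a' ∈ (univ.filter fun z => 𝒞.c2 z b = R) := mem_filter.2 ⟨mem_univ _, h2⟩
    rw [hc] at h4 h5
    rw [mem_singleton.1 h4, mem_singleton.1 h5]
  classical
  let f : V → V := fun a => if ha : 𝒞.c1 a = ρ then (hout a ha).choose else a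
  have hf : ∀ a, 𝒞.c1 a = ρ → 𝒞.c2 a (f a) = R := by
    intro a ha
    simp only [f, dif_pos ha]
    exact (hout a ha).choose_spec.1
  have hf' : ∀ a b, 𝒞.c2 a b = R → b = f a := by
    intro a b h
    simp only [f, dif_pos (hX _ _ h).1]
    exact (hout a (hX _ _ h).1).choose_spec.2 b h
  have hfX : ∀ a, 𝒞.c1 a = ρ → 𝒞.c1 (f a) = ρ := fun a ha => (hX _ _ (hf a ha)).2
  have hfn : ∀ a, 𝒞.c1 a ≠ ρ → f a = a := by
    intro a ha
    simp only [f, dif_neg ha]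
  have hinj : Function.Injective f := by
    intro a a' h
    by_cases ha : 𝒞.c1 a = ρ
    · by_cases ha' : 𝒞.c1 a' = ρ
      · exact hin a a' (f a) (hf a ha) (by rw [h]; exact hf a' ha')
      · exfalso
        apply ha'
        rw [← hfn a' ha', ← h]
        exact hfX a ha
    · by_cases ha' : 𝒞.c1 a' = ρ
      · exfalso
        apply ha
        rw [← hfn a ha, h]
        exact hfX a' ha'
      · rw [hfn a ha, hfn a' ha'] at h
        exact h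
  let g : Equiv.Perm V := Equiv.ofBijective f (Finite.injective_iff_bijective.1 hinj)
  have hg : ∀ a, g a = f a := fun a => rfl
  -- the colour of `(a, g^j a)` does not depend on `a`
  have hpow : ∀ j : ℕ, ∀ a, 𝒞.c1 a = ρ → 𝒞.c1 ((g ^ j) a) = ρ ∧
      𝒞.c2 a ((g ^ j) a) = 𝒞.c2 v ((g ^ j) v) := by
    intro j
    induction j with
    | zero =>
      intro a ha
      exact ⟨ha, c2_diag 𝒞 hm2 (ha.trans hv.symm)⟩
    | succ j ih =>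
      intro a ha
      obtain ⟨h1, h2⟩ := ih a ha
      obtain ⟨h3, h4⟩ := ih v hv
      rw [pow_succ', Equiv.Perm.mul_apply, Equiv.Perm.mul_apply, hg, hg]
      refine ⟨hfX _ h1, ?_⟩
      obtain ⟨c', hc'⟩ := ext2' 𝒞 hm h2 (f ((g ^ j) a))
      have h5 := c2_of_c3_23 𝒞 hm hc'
      rw [hf _ h1] at h5
      have h6 := hf' _ _ h5
      rw [h6] at hc'
      exact (c2_of_c3_13 𝒞 hm hc').symm
  have hper : ∀ (j : ℕ) (a : V), 𝒞.c1 a = ρ → ((g ^ j) a = a ↔ (g ^ j) v = v) := by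
    intro j a ha
    have h1 := (hpow j a ha).2
    constructor
    · intro h2
      exact (eq_of_c2 𝒞 hm2 h1 h2.symm).symm
    · intro h2
      exact (eq_of_c2 𝒞 hm2 h1.symm h2.symm).symm
  set L := Function.minimalPeriod g v with hL
  have hLne : L ≠ 1 := by
    intro h1
    have h2 : g v = v := Function.minimalPeriod_eq_one_iff_isFixedPt.1 (hL.symm.trans h1)
    have h3 := hf v hv
    rw [← hg, h2] at h3
    exact hvw (eq_of_c2 𝒞 hm2 (h3.trans hRdef) rfl)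
  obtain ⟨r, hr, hrL⟩ := Nat.exists_prime_and_dvd hLne
  have hdvd : ∀ (j : ℤ) (a : V), 𝒞.c1 a = ρ → (g ^ j) a = a → ((j : ℤ) : ZMod r) = 0 := by
    intro j a ha hj
    have h1 : (L : ℤ) ∣ j := by
      have h3 : Function.minimalPeriod g a = L := by
        apply Nat.dvd_antisymm
        · apply Function.IsPeriodicPt.minimalPeriod_dvd
          have := Function.isPeriodicPt_minimalPeriod g v
          rw [Function.IsPeriodicPt, Function.IsFixedPt, ← Equiv.Perm.coe_pow] at this ⊢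
          exact (hper _ a ha).2 this
        · apply Function.IsPeriodicPt.minimalPeriod_dvd
          have := Function.isPeriodicPt_minimalPeriod g a
          rw [Function.IsPeriodicPt, Function.IsFixedPt, ← Equiv.Perm.coe_pow] at this ⊢
          exact (hper _ a ha).1 this
      rw [← h3]
      have := (MulAction.zpow_smul_eq_iff_minimalPeriod_dvd (a := g) (b := a) (n := j)).1 hj
      exact this
    rw [ZMod.intCast_zmod_eq_zero_iff_dvd]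
    exact (Int.natCast_dvd_natCast.2 hrL).trans h1
  have hrep : ∀ a, ∃ i : ℤ, (g ^ i) (Quotient.out (Quotient.mk (Equiv.Perm.SameCycle.setoid g) a)) = a := by
    intro a
    have h1 : Equiv.Perm.SameCycle g
      (Quotient.out (Quotient.mk (Equiv.Perm.SameCycle.setoid g) a)) a := Quotient.mk_out
        (s := Equiv.Perm.SameCycle.setoid g) a
    exact h1
  choose idx hidx using hrep
  refine cyc0 𝒞 hm hr (fun a => ((idx a : ℤ) : ZMod r)) (hv.trans hw.symm) ?_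
  intro a b hab
  have hb : b = g a := hf' a b hab
  have ha : 𝒞.c1 a = ρ := (hX _ _ hab).1
  have h3 : Quotient.mk (Equiv.Perm.SameCycle.setoid g) a =
      Quotient.mk (Equiv.Perm.SameCycle.setoid g) b := by
    apply Quotient.sound
    rw [hb]
    exact (Equiv.Perm.sameCycle_apply_right.2 (Equiv.Perm.SameCycle.refl g a))
  have h1 := hidx a
  have h2 := hidx b
  rw [← h3] at h2
  have h4 : (g ^ (idx b - idx a - 1)) a = a := by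
    have h5 : (g ^ (idx b - idx a - 1)) ((g ^ idx a)
        (Quotient.out (Quotient.mk (Equiv.Perm.SameCycle.setoid g) a))) = a := by
      rw [← Equiv.Perm.mul_apply, ← zpow_add, show idx b - idx a - 1 + idx a = -1 + idx b by ring,
        zpow_add, Equiv.Perm.mul_apply, h2, hb, zpow_neg_one]
      exact Equiv.symm_apply_apply g a
    rwa [h1] at h5
  have h6 := hdvd _ a ha h4
  push_cast at h6 ⊢
  linear_combination h6

end Gro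

/-- **block GRO** -/
theorem gro_of (hAM : AMStmt) (hVAN : VanStmt) (hDEG : DegStmt) : GroStmt := by
  intro V ι _ _ _ m 𝒞 ρ hX
  have hm2 : 2 ≤ m + 6 := by omega
  have hm3 : 3 ≤ m + 6 := by omega
  obtain ⟨v, hv', w, hw', hvw⟩ := Finset.one_lt_card.1 hX
  rw [Gro.mem_cls] at hv' hw'
  set T := 𝒞.rels ρ ρ with hT
  have hd : 𝒞.c2 v v ∈ T := (Gro.mem_rels 𝒞 ρ ρ _).2 ⟨v, v, hv', hv', rfl⟩
  have hwT : 𝒞.c2 v w ∈ T.erase (𝒞.c2 v v) := by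
    refine mem_erase.2 ⟨?_, (Gro.mem_rels 𝒞 ρ ρ _).2 ⟨v, w, hv', hw', rfl⟩⟩
    intro h
    exact hvw (Gro.eq_of_c2 𝒞 hm2 h.symm rfl)
  obtain ⟨R, hRT, hmin⟩ := Finset.exists_min_image (T.erase (𝒞.c2 v v))
    (fun S => (univ.filter fun z => 𝒞.c2 v z = S).card) ⟨_, hwT⟩
  have hR := mem_of_mem_erase hRT
  set k := (univ.filter fun z => 𝒞.c2 v z = R).card with hk
  -- `k ≥ 2`
  obtain ⟨w', hw'1, hw'2⟩ := Gro.exists_of_rels 𝒞 hm2 hR hv'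
  have hvw' : v ≠ w' := by
    rintro rfl
    exact ne_of_mem_erase hRT hw'2.symm
  have hk1 : k ≠ 1 := by
    have := Gro.card_ne_one 𝒞 hm3 hv' hw'1 hvw'
    rwa [hw'2] at this
  have hk0 : 0 < k := card_pos.2 ⟨w', mem_filter.2 ⟨mem_univ _, hw'2⟩⟩
  have hk2 : 2 ≤ k := by omega
  -- `(r - 1) k ≤ |X|`
  have hrk : (T.card - 1) * k ≤ (𝒞.cls ρ).card := by
    rw [Gro.card_cls 𝒞 hm2 hv', ← card_erase_of_mem hd, ← hT, ← smul_eq_mul]
    calc (T.erase (𝒞.c2 v v)).card • k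
        ≤ ∑ S ∈ T.erase (𝒞.c2 v v), (univ.filter fun z => 𝒞.c2 v z = S).card :=
          Finset.card_nsmul_le_sum _ _ _ hmin
      _ ≤ _ := Finset.sum_le_sum_of_subset (erase_subset _ _)
  have hclsR : ((𝒞.fix v).cls R).card = k := by rw [Gro.fix_cls]
  by_cases hbig : 2 ^ (m + 1) * k ^ 3 ≤ (𝒞.cls ρ).card ^ 3
  · refine ⟨v, R, hv', by rw [hclsR]; exact hk2, ?_, by rw [hclsR]; exact hrk, Or.inl ?_⟩
    · exact Gro.three_rels (𝒞.fix v) (by omega) (by rw [hclsR]; exact hk2)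
    · rw [hclsR]; exact hbig
  -- all types `(R, S, R)` occur
  have hvan : ∀ S ∈ T.erase (𝒞.c2 v v), ∃ x y : V, 𝒞.c2 v x = R ∧ 𝒞.c2 x y = S ∧ 𝒞.c2 y v = R := by
    intro S hS
    refine hVAN V ι (m + 6) 𝒞 hm3 (2 ^ (m + 1)) ?_ ρ R S v hv' hR (mem_of_mem_erase hS) (hmin S hS) ?_
    · intro A h1 h2 h3
      exact hDEG V ι (m + 1) 𝒞 A h1 h2 h3
    · rw [not_le] at hbig
      exact hbig
  set Rt := Gro.tr 𝒞 R with hRt
  have hclsRt : ((𝒞.fix v).cls Rt).card = k := by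
    rw [Gro.fix_cls]
    exact Gro.card_tr 𝒞 hm2 hR hv'
  -- the number of relations between `R(v)` and `R^t(v)`
  have hmemRt : ∀ x y, 𝒞.c2 v x = R → 𝒞.c2 y v = R → Gro.c3 𝒞 v x y ∈ (𝒞.fix v).rels R Rt := by
    intro x y hx hy
    refine (Gro.mem_rels (𝒞.fix v) R Rt _).2 ⟨x, y, ?_, ?_, ?_⟩
    · rw [Gro.fix_c1, hx]
    · rw [Gro.fix_c1, hRt, ← hy, Gro.tr_c2 𝒞 hm2]
    · rw [Gro.fix_c2]
  haveI : Nonempty V := ⟨v⟩
  choose! x y hx hxy hy using hvan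
  obtain ⟨h1, h2, h3⟩ : 𝒞.c2 v (x R) = R ∧ 𝒞.c2 (x R) (y R) = R ∧ 𝒞.c2 (y R) v = R :=
    ⟨hx R hRT, hxy R hRT, hy R hRT⟩
  have hfirst : ∀ a b, 𝒞.c2 a b = R → 𝒞.c1 a = 𝒞.c1 v := by
    intro a b h
    exact Gro.c1_of_c2 𝒞 hm2 (h.trans h1.symm)
  have hne : ∀ a b, 𝒞.c2 a b = R → a ≠ b := by
    rintro a b h rfl
    exact hvw' (Gro.eq_of_c2 𝒞 hm2 (h.trans hw'2.symm) rfl)
  -- a triple of the same colour over `v`
  have hmove : ∀ a b c, 𝒞.c2 a b = R → ∃ x' y', Gro.c3 𝒞 v x' y' = Gro.c3 𝒞 a b c := by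
    intro a b c hab
    obtain ⟨x', hx'⟩ := Gro.ext1' 𝒞 hm2 (hfirst a b hab) b
    obtain ⟨y', hy'⟩ := Gro.ext2' 𝒞 hm3 hx'.symm c
    exact ⟨x', y', hy'⟩
  obtain ⟨x1, y1, e1⟩ := hmove (x R) (y R) v h2
  obtain ⟨x2, y2, e2⟩ := hmove (y R) v (x R) h3
  have g1 : 𝒞.c2 v x1 = R := (Gro.c2_of_c3_12 𝒞 hm3 e1).trans h2
  have g2 : 𝒞.c2 x1 y1 = R := (Gro.c2_of_c3_23 𝒞 hm3 e1).trans h3
  have g3 : 𝒞.c2 y1 v = R := (Gro.c2_swap 𝒞 hm2 (Gro.c2_of_c3_13 𝒞 hm3 e1)).trans h1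
  have g4 : 𝒞.c2 v x2 = R := (Gro.c2_of_c3_12 𝒞 hm3 e2).trans h3
  have g5 : 𝒞.c2 x2 y2 = R := (Gro.c2_of_c3_23 𝒞 hm3 e2).trans h1
  have g6 : 𝒞.c2 y2 v = R := (Gro.c2_swap 𝒞 hm2 (Gro.c2_of_c3_13 𝒞 hm3 e2)).trans h2
  have d01 : Gro.c3 𝒞 v x1 y1 ≠ Gro.c3 𝒞 v (x R) (y R) := by
    rw [e1]
    exact Gro.c3_ne_rot 𝒞 hm3 (hne _ _ h1) (hne _ _ h3).symm (hne _ _ h2)
  have d12 : Gro.c3 𝒞 v x2 y2 ≠ Gro.c3 𝒞 v x1 y1 := by
    rw [e1, e2]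
    exact Gro.c3_ne_rot 𝒞 hm3 (hne _ _ h2) (hne _ _ h1).symm (hne _ _ h3)
  have d20 : Gro.c3 𝒞 v (x R) (y R) ≠ Gro.c3 𝒞 v x2 y2 := by
    rw [e2]
    exact Gro.c3_ne_rot 𝒞 hm3 (hne _ _ h3) (hne _ _ h2).symm (hne _ _ h1)
  have hcard : T.card + 1 ≤ ((𝒞.fix v).rels R Rt).card := by
    set T3 : Finset ι := {Gro.c3 𝒞 v (x R) (y R), Gro.c3 𝒞 v x1 y1, Gro.c3 𝒞 v x2 y2} with hT3
    set U := ((T.erase (𝒞.c2 v v)).erase R).image fun S => Gro.c3 𝒞 v (x S) (y S) with hU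
    have hsub : U ∪ T3 ⊆ (𝒞.fix v).rels R Rt := by
      intro i hi
      rcases mem_union.1 hi with hi | hi
      · obtain ⟨S, hS, rfl⟩ := mem_image.1 hi
        have hS' := mem_of_mem_erase hS
        exact hmemRt _ _ (hx S hS') (hy S hS')
      · rw [hT3] at hi
        simp only [mem_insert, mem_singleton] at hi
        rcases hi with rfl | rfl | rfl
        · exact hmemRt _ _ h1 h3
        · exact hmemRt _ _ g1 g3
        · exact hmemRt _ _ g4 g6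
    have hdisj : Disjoint U T3 := by
      rw [Finset.disjoint_left]
      intro i hi hi'
      obtain ⟨S, hS, rfl⟩ := mem_image.1 hi
      have hS' := mem_of_mem_erase hS
      apply ne_of_mem_erase hS
      rw [← hxy S hS']
      rw [hT3] at hi'
      simp only [mem_insert, mem_singleton] at hi'
      rcases hi' with h | h | h
      · exact (Gro.c2_of_c3_23 𝒞 hm3 h).trans h2
      · exact (Gro.c2_of_c3_23 𝒞 hm3 h).trans g2
      · exact (Gro.c2_of_c3_23 𝒞 hm3 h).trans g5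
    have hUc : U.card = T.card - 2 := by
      rw [hU, card_image_of_injOn, card_erase_of_mem hRT, card_erase_of_mem hd]
      · omega
      · intro S hS S' hS' h
        have hS1 := mem_of_mem_erase (mem_coe.1 hS)
        have hS2 := mem_of_mem_erase (mem_coe.1 hS')
        rw [← hxy S hS1, ← hxy S' hS2]
        exact Gro.c2_of_c3_23 𝒞 hm3 h
    have hT3c : T3.card = 3 := by
      rw [hT3]
      exact card_eq_three.2 ⟨_, _, _, d01.symm, d20, d12.symm, rfl⟩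
    have h4 := card_le_card hsub
    rw [card_union_of_disjoint hdisj, hUc, hT3c] at h4
    have h5 : 2 ≤ T.card := Finset.one_lt_card.2 ⟨_, hd, _, hR, (ne_of_mem_erase hRT).symm⟩
    omega
  have ham := hAM V ι (m + 5) (𝒞.fix v) (by omega) R Rt
  have o0 := Gro.odd_rels 𝒞 hm2 hv'
  have o1 : Odd ((𝒞.fix v).rels R R).card :=
    Gro.odd_rels (𝒞.fix v) (by omega) (v := w') (by rw [Gro.fix_c1, hw'2])
  have o2 : Odd ((𝒞.fix v).rels Rt Rt).card :=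
    Gro.odd_rels (𝒞.fix v) (by omega) (v := y R) (by
      rw [Gro.fix_c1, hRt, ← Gro.tr_c2 𝒞 hm2, h3])
  rw [← hT] at o0
  have hor : T.card + 2 ≤ ((𝒞.fix v).rels R R).card ∨
      T.card + 2 ≤ ((𝒞.fix v).rels Rt Rt).card := by
    obtain ⟨a, ha⟩ := o0
    obtain ⟨b, hb⟩ := o1
    obtain ⟨c, hc⟩ := o2
    omega
  rcases hor with h | h
  · refine ⟨v, R, hv', by rw [hclsR]; exact hk2, ?_, by rw [hclsR]; exact hrk, Or.inr h⟩
    exact Gro.three_rels (𝒞.fix v) (by omega) (by rw [hclsR]; exact hk2)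
  · refine ⟨v, Rt, hv', by rw [hclsRt]; exact hk2, ?_, by rw [hclsRt]; exact hrk, Or.inr h⟩
    exact Gro.three_rels (𝒞.fix v) (by omega) (by rw [hclsRt]; exact hk2)

end Vale.Agent.P319.SC
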