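import Mathlib
import Vale.Agent.P319.FR.Defs

/-! P319, block SC: the algorithm with budget `(s ^ (log s / log log s) * log p) ^ C`.
`nr p N r` is a supplier of nonresidues, `N` the budget. -/

set_option linter.all false

namespace Vale.Agent.P319

open Polynomial

/-- the number of coordinates: the number of `k ≥ 1` with `n ^ k ≤ N`, `n = deg g` -/
def scM (N : ℕ) (g : List ℕ) : ℕ :=
  ((List.range (Nat.size N)).filter fun k => decide (powClamp N (g.length - 1) (k + 1) ≤ N)).length

/-- the exponent `log s / log log s` (rounded) -/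
def scE (s : ℕ) : ℕ := Nat.log 2 s / Nat.log 2 (Nat.log 2 s) + 1

/-- replace coordinate `i` by `j` -/
def scU (m i j : ℕ) : List ℕ := (List.range m).map fun l => if l = i then j else l

/-- exchange the coordinates `k` and `k + 1` -/
def scW (m k : ℕ) : List ℕ :=
  (List.range m).map fun l => if l = k then k + 1 else if l = k + 1 then k else l

/-- product of relations between the coordinates `k` and `k + 1` (`c` = coordinate `k + 2`):
`(A B) (a, b) = ∑_c A (a, c) B (c, b)` -/
def scMul (p : ℕ) (g : List ℕ) (m k : ℕ) (A B : List ℕ) : List ℕ :=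
  evTr p g m (k + 2) ((evOps p g m).mul (evSubst p g m (scU m (k + 1) (k + 2)) A)
    (evSubst p g m (scU m k (k + 2)) B))

/-- the relation `x_k = x_{k+1}` -/
def scEq (p : ℕ) (g : List ℕ) (m k : ℕ) : List ℕ :=
  addL p (evOps p g m).one (smulL p (p - 1) ((evOps p g m).pow
    (addL p (evX p g m k) (smulL p (p - 1) (evX p g m (k + 1)))) (p - 1)))

/-- one step of the closure of the relation `K`: add `K K` and `hᵀ K h` -/
def scStep (p : ℕ) (g : List ℕ) (m k : ℕ) (h K : List ℕ) : List ℕ :=
  (evOps p g m).pow (addL p K (addL p (scMul p g m k K K)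
    (scMul p g m k (evSubst p g m (scW m k) h) (scMul p g m k K h)))) (p - 1)

/-- the smallest equivalence relation such that successors (for `h`) of equivalent points are
equivalent -/
def scK (p : ℕ) (g : List ℕ) (m k : ℕ) (h : List ℕ) : List ℕ :=
  (scStep p g m k h)^[(g.length - 1) ^ 2] (scEq p g m k)

/-- the function `∑_{j ≤ n} (τ x_i) ^ j` -/
def scG (p : ℕ) (g : List ℕ) (m i τ : ℕ) : List ℕ :=
  (fun w => addL p (evOps p g m).one ((evOps p g m).mul (smulL p τ (evX p g m i)) w))^[g.length - 1]
    (evOps p g m).one

/-- the function `a ↦ ∑_{z ~ a} ∑_{j ≤ n} (τ z) ^ j` of the coordinate `k` -/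
def scB0 (p : ℕ) (g : List ℕ) (m k : ℕ) (K : List ℕ) (τ : ℕ) : List ℕ :=
  evTr p g m (k + 1) ((evOps p g m).mul K (scG p g m (k + 1) τ))

/-- one step along the relation `h`: `b ↦ (1/κ) ∑_z h (a, z) b z` -/
def scT (p : ℕ) (g : List ℕ) (m k κ : ℕ) (h b : List ℕ) : List ℕ :=
  smulL p (invMod p κ) (evS p g m (k + 1) h b)

section
variable (nr : ℕ → ℕ → ℕ → List (List ℕ))

/-- tests for cyclic covers; `h` is a relation between the coordinates `k` and `k + 1` -/
def scCov (p N : ℕ) (g : List ℕ) (m k : ℕ) (h : List ℕ) : List (List ℕ) :=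
  (List.range (g.length ^ 3)).flatMap fun τ => (List.range g.length).flatMap fun κ =>
    (List.range g.length).flatMap fun j => (List.range g.length).flatMap fun r =>
      if primeB r = true then
        evCycTestsN nr p N g m r (fun i => (scT p g m k κ h)^[j * i]
          (scB0 p g m k (scK p g m k h) τ))
      else []

/-- the new tests for the class `e` -/
def scTests1 (p N : ℕ) (g : List ℕ) (m : ℕ) (e : List ℕ) : List (List ℕ) :=
  ((List.range m).flatMap fun i => (List.range m).map fun j => evSubst p g m (scU m i j) e) ++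
    ((List.range (m - 2)).flatMap fun k => scCov nr p N g m k (evSubst p g m (evF m (k + 1)) e))

/-- all tests -/
def scTestsN (p N : ℕ) (g : List ℕ) (m : ℕ) (E : List (List ℕ)) : List (List ℕ) :=
  evTestsN nr p N g m E ++
    ((if 4 ≤ g.length then evCycTestsN nr p N g m 3 (fun i => evX p g m i) else []) ++
      E.flatMap fun e => scTests1 nr p N g m e)

def scRoundN (p N : ℕ) (g : List ℕ) (m : ℕ) (E : List (List ℕ)) : List (List ℕ) :=
  (scTestsN nr p N g m E).foldl (evRefine p g m) E

/-- the final partition of `Z ^ m` -/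
def scFinalN (p N : ℕ) (g : List ℕ) (m : ℕ) : List (List ℕ) :=
  (scRoundN nr p N g m)^[(g.length - 1) ^ m] [(evOps p g m).one]

/-- the test polynomials for the piece `g` -/
def scTestsForN (p N : ℕ) (g : List ℕ) : List (List ℕ) :=
  if 3 ≤ g.length ∧ 6 ≤ scM N g ∧ powClamp N (g.length - 1) (scM N g) ≤ N then
    (scFinalN nr p N g (scM N g)).map (evDiag p g (scM N g)) else []

/-! ### Root finding -/

/-- one round of splitting -/
def scSplitRoundN (p N : ℕ) (L : List (List ℕ)) : List (List ℕ) :=
  L.flatMap fun l => (scTestsForN nr p N l).foldl (refineL p) [l]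

/-- the pieces of `g` after all rounds -/
def scRootLN (p N : ℕ) (g : List ℕ) : List (List ℕ) :=
  (scSplitRoundN nr p N)^[g.length] ([g].filter fun l => decide (2 ≤ l.length))

/-- the shifts `-root` found -/
def scRootShiftsN (p N : ℕ) (g : List ℕ) : List ℕ :=
  ((scRootLN nr p N g).filter fun l => decide (l.length = 2)).map fun l => l.headD 0

/-- the shifts used for the equal degree factorization of `f` -/
def scShiftsOfN (p N : ℕ) (f : List ℕ) : List ℕ :=
  ((ddfTests p f).foldl (refineL p) ([f].filter fun l => decide (2 ≤ l.length))).flatMap fun l =>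
    (List.range f.length).flatMap fun d => (List.range (2 * f.length)).flatMap fun j =>
      scRootShiftsN nr p N (valPoly p l d j)

/-- the shifts: everything if `p ≤ N` -/
def scShiftsBN (p N : ℕ) (f : List ℕ) : List ℕ := if p ≤ N then List.range p else scShiftsOfN nr p N f

/-- The whole algorithm; `cs` is the coefficient list of the polynomial, `N` the budget. -/
def run4N (p N : ℕ) (cs : List ℕ) : List (ℕ × List (List ℕ)) :=
  if checkL p (monicL p cs) (factorL p (monicL p cs) (scShiftsBN nr p N (monicL p cs))) = true then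
    [(cs.getLastD 0, factorL p (monicL p cs) (scShiftsBN nr p N (monicL p cs)))] else []

end

end Vale.Agent.P319
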