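import Mathlib
import Vale.Agent.P319.SC.Defs
import Vale.Agent.P319.SC.Iface
import Vale.Agent.P319.FR.Sep

/-! P319, block SC, algorithm: statements of the packages ALG-*. -/

set_option linter.all false

namespace Vale.Agent.P319.SC

open Polynomial Vale.Agent.P319.Ev

/-! ### Values of the cyclic cover tests (package ALG-VL) -/

/-- stage `t` of the closure of the equality relation under composition and successors of related
points are related -/
def KRel {V : Type} (R : V → V → Prop) : ℕ → V → V → Prop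
  | 0, a, b => a = b
  | t + 1, a, b => KRel R t a b ∨ (∃ c, KRel R t a c ∧ KRel R t c b) ∨
      ∃ c d, R c a ∧ KRel R t c d ∧ R d b

open Classical in
/-- the function `a ↦ ∑_{z ~ a} ∑_{j ≤ n} (τ z) ^ j` -/
noncomputable def B0 {p : ℕ} {Z : Finset (ZMod p)} (K : Z → Z → Prop) (τ : ℕ) (a : Z) : ZMod p :=
  ∑ z : Z, if K a z then ∑ j ∈ Finset.range (Z.card + 1), ((τ : ZMod p) * z) ^ j else 0

open Classical in
/-- one step along the relation -/
noncomputable def Tst {p : ℕ} {Z : Finset (ZMod p)} (R : Z → Z → Prop) (κ : ℕ) (b : Z → ZMod p)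
    (a : Z) : ZMod p := (κ : ZMod p)⁻¹ * ∑ z : Z, if R a z then b z else 0

/-- **ALG-VL**, substitution -/
def VLUStmt : Prop := ∀ (p : ℕ) [Fact p.Prime] (g : List ℕ) (Z : Finset (ZMod p)), Sit p g Z →
  ∀ (m i j : ℕ), i < m → j < m → ∀ w : List ℕ, VecK p (Z.card ^ m) w →
    VecK p (Z.card ^ m) (evSubst p g m (scU m i j) w) ∧
      ∀ v : ℕ → Z, vl Z m (evSubst p g m (scU m i j) w) v = vl Z m w (Function.update v i (v j))

/-- **ALG-VL**, validity of the sequences in the cyclic cover tests -/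
def VLVecStmt : Prop := ∀ (p : ℕ) [Fact p.Prime] (g : List ℕ) (Z : Finset (ZMod p)), Sit p g Z →
  ∀ (m k : ℕ), k + 2 < m → ∀ h : List ℕ, VecK p (Z.card ^ m) h → ∀ κ τ t : ℕ,
    VecK p (Z.card ^ m) ((scT p g m k κ h)^[t] (scB0 p g m k (scK p g m k h) τ))

/-- **ALG-VL**, values of the sequences in the cyclic cover tests: `R` = the relation between the
coordinates `k` and `k + 1` over the base `u`, `h` its indicator function -/
def VLStmt : Prop := ∀ (p : ℕ) [Fact p.Prime] (g : List ℕ) (Z : Finset (ZMod p)), Sit p g Z →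
  ∀ (m k : ℕ), k + 2 < m → Z.card ^ 2 + Z.card + 1 < p → ∀ h : List ℕ, VecK p (Z.card ^ m) h →
  ∀ (u : ℕ → Z) (R : Z → Z → Prop),
    (∀ v : ℕ → Z, (∀ l < k, v l = u l) →
      (R (v k) (v (k + 1)) → vl Z m h v = 1) ∧ (¬ R (v k) (v (k + 1)) → vl Z m h v = 0)) →
  ∀ κ τ t : ℕ, ∀ v : ℕ → Z, (∀ l < k, v l = u l) →
    vl Z m ((scT p g m k κ h)^[t] (scB0 p g m k (scK p g m k h) τ)) v =
      ((Tst R κ)^[t] (B0 (KRel R (Z.card ^ 2)) τ)) (v k)

/-! ### Colours of tuples -/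

section
variable {p : ℕ} [hpf : Fact p.Prime] {Z : Finset (ZMod p)} {M : ℕ}

/-- the colour of the tuple `(v_0, …, v_{k-1})` (the last coordinate is repeated) -/
noncomputable def scCol {E : List (List ℕ)} (hE : Good Z M E) (k : ℕ) (v : ℕ → Z) : List ℕ :=
  if k = 0 then [] else col hE (ins (k - 1) v (v (k - 1)))

end

/-- the standing assumptions: a stable partition of `Z ^ M` -/
structure SCtx (nr : ℕ → ℕ → ℕ → List (List ℕ)) (p N : ℕ) [Fact p.Prime] (g : List ℕ)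
    (Z : Finset (ZMod p)) (M : ℕ) (E : List (List ℕ)) : Prop where
  ctx : EvN.Ctx nr p N g Z M
  big : (Z.card + 1) ^ 3 < p
  good : Good Z M E
  stab : ∀ t ∈ scTestsN nr p N g M E, ∀ e ∈ E, Stab Z M t e

/-- **ALG-CFG**: all fields of `Cfg` except `cyc` -/
def CfgStmt : Prop := ∀ (nr : ℕ → ℕ → ℕ → List (List ℕ)) (p N : ℕ) [Fact p.Prime] (g : List ℕ)
  (Z : Finset (ZMod p)) (M : ℕ) (E : List (List ℕ)) (H : SCtx nr p N g Z M E) (m : ℕ),
  2 * m ≤ M → 3 ≤ m →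
  (∀ k, k ≤ m → ∀ v w : ℕ → Z, (∀ i < k, v i = w i) → scCol H.good k v = scCol H.good k w) ∧
  (∀ j k, j ≤ m → k ≤ m → ∀ f : ℕ → ℕ, (∀ i < j, f i < k) → ∀ v w : ℕ → Z,
    scCol H.good k v = scCol H.good k w → scCol H.good j (v ∘ f) = scCol H.good j (w ∘ f)) ∧
  (∀ k, k < m → ∀ v w : ℕ → Z, scCol H.good k v = scCol H.good k w → ∀ i : List ℕ,
    (Finset.univ.filter fun z => scCol H.good (k + 1) (ins k v z) = i).card =
      (Finset.univ.filter fun z => scCol H.good (k + 1) (ins k w z) = i).card) ∧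
  (∀ k, k ≤ m → ∀ v w : ℕ → Z, scCol H.good k v = scCol H.good k w → ∀ i < k, ∀ j < k,
    v i = v j → w i = w j) ∧
  (∀ k, k + 2 ≤ m → ∀ v : ℕ → Z, v k ≠ v (k + 1) →
    scCol H.good (k + 2) (v ∘ sw k) ≠ scCol H.good (k + 2) v) ∧
  (∀ k, k + 3 ≤ m → ∀ v : ℕ → Z, v k ≠ v (k + 1) → v k ≠ v (k + 2) → v (k + 1) ≠ v (k + 2) →
    scCol H.good (k + 3) (v ∘ ro k) ≠ scCol H.good (k + 3) v)

/-- **ALG-CYC**: the field `cyc`; the hypotheses `hsub`, `hfst`, `hext` come from **ALG-CFG** -/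
def CycStmt : Prop := ∀ (nr : ℕ → ℕ → ℕ → List (List ℕ)) (p N : ℕ) [Fact p.Prime] (g : List ℕ)
  (Z : Finset (ZMod p)) (M : ℕ) (E : List (List ℕ)) (H : SCtx nr p N g Z M E) (k : ℕ),
  k + 2 < M → ∀ u : ℕ → Z,
  -- the colour of `(u, a, b)` determines the colour of `(u, b, a)` and of `(u, a)`
  (∀ a b a' b' : Z, col H.good (ins (k + 1) (ins k u a) b) = col H.good (ins (k + 1) (ins k u a') b') →
    col H.good (ins (k + 1) (ins k u b) a) = col H.good (ins (k + 1) (ins k u b') a')) →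
  (∀ a b a' b' : Z, col H.good (ins (k + 1) (ins k u a) b) = col H.good (ins (k + 1) (ins k u a') b') →
    col H.good (ins k u a) = col H.good (ins k u a')) →
  (∀ a a' : Z, col H.good (ins k u a) = col H.good (ins k u a') → ∀ i : List ℕ,
    (Finset.univ.filter fun z => col H.good (ins (k + 1) (ins k u a) z) = i).card =
      (Finset.univ.filter fun z => col H.good (ins (k + 1) (ins k u a') z) = i).card) →
  ∀ (i : List ℕ) (r : ℕ) (h : Z → ZMod r), r.Prime →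
    (∃ a b, col H.good (ins (k + 1) (ins k u a) b) = i) →
    (∀ a b, col H.good (ins (k + 1) (ins k u a) b) = i →
      col H.good (ins k u a) = col H.good (ins k u b)) →
    ¬ ∀ a b, col H.good (ins (k + 1) (ins k u a) b) = i → h b = h a + 1

/-- **ALG-ARITH**: the number of levels is large enough -/
def ArithStmt : Prop := ∀ C : ℕ, ∃ C₀ : ℕ, ∀ s n N M : ℕ, 2 ≤ n → n ≤ s → s ^ (C₀ * scE s) ≤ N →
  (∀ k, n ^ k ≤ N → k ≤ M) → 12 ≤ M ∧ C * Nat.log 2 n < (M / 2) * Nat.log 2 (M / 2)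

/-- **ALG-SEP**: the tests separate, given nonresidues -/
def SEPStmtSC (C₀ : ℕ) (nr : ℕ → ℕ → ℕ → List (List ℕ)) : Prop :=
  ∀ (p N : ℕ) [Fact p.Prime] (g : List ℕ) (Z : Finset (ZMod p)), MonL p g →
  toPoly p g = ∏ a ∈ Z, (X - C a) → 2 ≤ Z.card → (∃ s, Z.card ≤ s ∧ s ^ (C₀ * scE s) ≤ N) → N < p →
  (∀ r : ℕ, r.Prime → r ≤ Z.card → nr p N r ≠ []) →
    ∃ u ∈ Z, ∃ v ∈ Z, ∃ t ∈ scTestsForN nr p N g, eval u (toPoly p t) = 0 ∧ eval v (toPoly p t) ≠ 0

/-- **ALG-PF**: the tests are computable in polynomial time -/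
def PFStmt : Prop := ∀ (nr : ℕ → ℕ → ℕ → List (List ℕ)) [NrOK nr] (γ : Type) [Enc γ] (V : γ → Prop)
  (P N : γ → ℕ) (l : γ → List ℕ), PF V P → PF V N → PF V l → (∀ c, V c → (P c).Prime) → PolyB V N →
  (∀ c, V c → MonL (P c) (l c) ∧ 2 ≤ (l c).length) →
    PF V (fun c => scTestsForN nr (P c) (N c) (l c))

/-- at most `s` different monic irreducible factors of each degree -/
def FewFac {p : ℕ} (s : ℕ) (f : (ZMod p)[X]) : Prop :=
  ∀ (d : ℕ) (S : Finset (ZMod p)[X]),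
    (∀ P ∈ S, P.Monic ∧ Irreducible P ∧ P.natDegree = d ∧ P ∣ f) → S.card ≤ s

/-- **ALG-ASM**: the machine for a supplier `nr` (analogue of `machineN` in FR/Final.lean) -/
def MachStmt (C₀ : ℕ) (nr : ℕ → ℕ → ℕ → List (List ℕ)) : Prop :=
  ∃ A : Data → Data, PolyTime A ∧
    (∀ (p : ℕ) (_ : p.Prime) (f : (ZMod p)[X]) (_ : f ≠ 0) (w : Data),
      A (Data.pair (input f) w) = Data.num 0 ∨ IsFactorization f (A (Data.pair (input f) w))) ∧
    ∀ (p : ℕ) (_ : p.Prime) (f : (ZMod p)[X]) (_ : f ≠ 0) (s : ℕ), 1 ≤ s → FewFac s f →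
      ∀ w : Data, s ^ (C₀ * scE s) ≤ w.dataSize →
        (∀ N : ℕ, w.dataSize ≤ N → N < p → ∀ r : ℕ, r.Prime → r ≤ s → nr p N r ≠ []) →
        IsFactorization f (A (Data.pair (input f) w))

end Vale.Agent.P319.SC
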