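import Mathlib
import Vale.Agent.P319.Ev.Spec
import Vale.Agent.P319.Ev.Asm
import Vale.Agent.P319.SC.AIface

/-! P319, block SC, package ALG-ASM: assembly of the algorithm for a supplier `nr` of
nonresidues (analogue of `FR/Asm.lean` and `FR/Final.lean`). -/

set_option linter.all false

namespace Vale.Agent.P319.SC

open Polynomial


section
variable {nr : ℕ → ℕ → ℕ → List (List ℕ)}
variable {p : ℕ} [hpf : Fact p.Prime]

theorem scTestsFor_bdd (N : ℕ) (l : List ℕ) : ∀ t ∈ scTestsForN nr p N l, Bdd p t := by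
  have hp := hpf.out
  intro t ht
  unfold scTestsForN at ht
  split_ifs at ht with h
  · rw [List.mem_map] at ht
    obtain ⟨e, _, rfl⟩ := ht
    unfold evDiag
    exact pfPhase2_lincL_bdd hp.pos _ _
  · simp at ht

theorem sc_roots_round_inv (N : ℕ) {g : List ℕ} {L : List (List ℕ)} (hL : PInv p g L) :
    PInv p g (scSplitRoundN nr p N L) := by
  have hl : ∀ l ∈ L, PInv p l ((scTestsForN nr p N l).foldl (refineL p) [l]) := fun l hl =>
    foldl_inv (scTestsFor_bdd (nr := nr) N l) (roots_single_inv (hL.1 l hl).1 (hL.1 l hl).2)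
  constructor
  · intro h hh
    unfold scSplitRoundN at hh
    rw [List.mem_flatMap] at hh
    obtain ⟨l, hlL, hh⟩ := hh
    exact (hl l hlL).1 h hh
  · rw [← hL.2]
    clear hL
    induction L with
    | nil => rfl
    | cons l L ih =>
      have ih' := ih (fun l' hl' => hl l' (List.mem_cons_of_mem _ hl'))
      unfold scSplitRoundN at ih' ⊢
      rw [List.flatMap_cons, List.map_append, List.prod_append, ih', List.map_cons, List.prod_cons,
        (hl l List.mem_cons_self).2]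

theorem sc_rootL_inv (N : ℕ) {g : List ℕ} (hg : MonL p g) (i : ℕ) :
    PInv p g ((scSplitRoundN nr p N)^[i] ([g].filter fun l => decide (2 ≤ l.length))) := by
  induction i with
  | zero => exact start_inv hg
  | succ i ih =>
    rw [Function.iterate_succ_apply']
    exact sc_roots_round_inv (nr := nr) N ih

theorem sc_rootShifts_lt (N : ℕ) {g : List ℕ} (hg : MonL p g) : ∀ t ∈ scRootShiftsN nr p N g, t < p := by
  intro t ht
  unfold scRootShiftsN at ht
  rw [List.mem_map] at ht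
  obtain ⟨l, hl, rfl⟩ := ht
  rw [List.mem_filter] at hl
  have h1 := ((sc_rootL_inv (nr := nr) N hg g.length).1 l hl.1).1.1
  have h2 : l.length = 2 := by simpa using hl.2
  match l, h2 with
  | a :: b :: [], _ => exact h1 a List.mem_cons_self

/-- one round makes every piece smaller -/
theorem sc_roots_step {N s : ℕ}
    (hsep : ∀ (l : List ℕ) (Z : Finset (ZMod p)), MonL p l →
      toPoly p l = ∏ a ∈ Z, (X - C a) → 2 ≤ Z.card → Z.card ≤ s →
      ∃ u ∈ Z, ∃ v ∈ Z, ∃ t ∈ scTestsForN nr p N l, eval u (toPoly p t) = 0 ∧ eval v (toPoly p t) ≠ 0)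
    {l : List ℕ} (hl : MonL p l) (h2 : 2 ≤ l.length) (Z : Finset (ZMod p))
    (hZ : toPoly p l = ∏ a ∈ Z, (X - C a)) (hZs : Z.card ≤ s) :
    ∀ h ∈ (scTestsForN nr p N l).foldl (refineL p) [l], h.length ≤ max 2 (l.length - 1) := by
  have hp := hpf.out
  intro h hh
  have hbd := scTestsFor_bdd (nr := nr) (p := p) N l
  have hinv := foldl_inv hbd (roots_single_inv hl h2)
  have hhm := (hinv.1 h hh).1
  have hhd := hinv.dvd hh
  have hl0 : toPoly p l ≠ 0 := (hl.monic hp.one_lt).ne_zero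
  have hlen1 := hhm.length hp.one_lt
  have hlen2 := hl.length hp.one_lt
  have hdeg := natDegree_le_of_dvd hhd hl0
  have hcard : Z.card + 1 = l.length := by
    rw [hlen2, hZ, roots_natDegree]
  by_cases hc : 2 ≤ Z.card
  · obtain ⟨u, hu, v, hv, t, ht, hut, hvt⟩ := hsep l Z hl hZ hc hZs
    have hPt : (X - C u) ∣ toPoly p t := dvd_iff_isRoot.2 hut
    have hQt : ¬ (X - C v) ∣ toPoly p t := fun h0 => hvt (dvd_iff_isRoot.1 h0)
    obtain ⟨U1, U2, hU⟩ := List.append_of_mem ht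
    have hb1 : ∀ u ∈ U1, Bdd p u := fun u hu => hbd u (by rw [hU]; simp [hu])
    have hb2 : ∀ u ∈ U2, Bdd p u := fun u hu => hbd u (by rw [hU]; simp [hu])
    have htb := hbd t ht
    have hinv1 := foldl_inv hb1 (roots_single_inv hl h2)
    have hsq : ∀ l' ∈ U1.foldl (refineL p) [l], ¬ (X - C u) ^ 2 ∣ toPoly p l' := by
      intro l' hl' h0
      have := h0.trans (hinv1.dvd hl')
      rw [hZ] at this
      exact roots_sq Z u this
    have hs := single_sep htb hPt hQt hinv1 hsq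
    rw [hU, List.foldl_append, List.foldl_cons] at hh
    have hfin := foldl_mono hb2 (refineL_inv hinv1 htb)
      (fun l => ¬ ((X - C u) ∣ l ∧ (X - C v) ∣ l))
      (fun a b hab hb h => hb ⟨h.1.trans hab, h.2.trans hab⟩) hs h hh
    have hlt : h.length < l.length := by
      rcases Nat.lt_or_ge h.length l.length with h4 | h4
      · exact h4
      · exfalso
        have heq : toPoly p h = toPoly p l :=
          (eq_of_monic_of_dvd_of_natDegree_le (hhm.monic hp.one_lt) (hl.monic hp.one_lt) hhd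
            (by omega)).symm
        apply hfin
        rw [heq, hZ]
        exact ⟨(roots_dvd_iff Z u).2 hu, (roots_dvd_iff Z v).2 hv⟩
    have : h.length ≤ l.length - 1 := by omega
    exact this.trans (le_max_right _ _)
  · have : h.length ≤ 2 := by omega
    exact this.trans (le_max_left _ _)

theorem sc_roots_rounds {N s : ℕ}
    (hsep : ∀ (l : List ℕ) (Z : Finset (ZMod p)), MonL p l →
      toPoly p l = ∏ a ∈ Z, (X - C a) → 2 ≤ Z.card → Z.card ≤ s →
      ∃ u ∈ Z, ∃ v ∈ Z, ∃ t ∈ scTestsForN nr p N l, eval u (toPoly p t) = 0 ∧ eval v (toPoly p t) ≠ 0)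
    {g : List ℕ} (hg : MonL p g) (Z : Finset (ZMod p)) (hZ : toPoly p g = ∏ a ∈ Z, (X - C a))
    (hZs : Z.card ≤ s) (i : ℕ) :
    ∀ l ∈ (scSplitRoundN nr p N)^[i] ([g].filter fun l => decide (2 ≤ l.length)),
      l.length ≤ max 2 (g.length - i) := by
  have hp := hpf.out
  induction i with
  | zero =>
    intro l hl
    rw [Function.iterate_zero_apply, List.mem_filter, List.mem_singleton] at hl
    rw [hl.1, Nat.sub_zero]
    exact le_max_right _ _
  | succ i ih =>
    intro h hh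
    have hinv := sc_rootL_inv (nr := nr) N hg i
    rw [Function.iterate_succ_apply'] at hh
    unfold scSplitRoundN at hh
    rw [List.mem_flatMap] at hh
    obtain ⟨l, hl, hh⟩ := hh
    have hl' := hinv.1 l hl
    have hd := hinv.dvd hl
    rw [hZ] at hd
    obtain ⟨Z', hZ', he⟩ := roots_dvd_prod Z _ (hl'.1.monic hp.one_lt) hd
    have h1 := sc_roots_step (nr := nr) hsep hl'.1 hl'.2 Z' he ((Finset.card_le_card hZ').trans hZs) h hh
    have h2 := ih l hl
    omega

theorem sc_rootShifts_complete {N s : ℕ}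
    (hsep : ∀ (l : List ℕ) (Z : Finset (ZMod p)), MonL p l →
      toPoly p l = ∏ a ∈ Z, (X - C a) → 2 ≤ Z.card → Z.card ≤ s →
      ∃ u ∈ Z, ∃ v ∈ Z, ∃ t ∈ scTestsForN nr p N l, eval u (toPoly p t) = 0 ∧ eval v (toPoly p t) ≠ 0)
    {g : List ℕ} (hg : MonL p g) (Z : Finset (ZMod p)) (hZ : toPoly p g = ∏ a ∈ Z, (X - C a))
    (hZs : Z.card ≤ s) : ∀ a ∈ Z, ∃ t ∈ scRootShiftsN nr p N g, (t : ZMod p) = -a := by
  have hp := hpf.out
  intro a ha
  have hinv := sc_rootL_inv (nr := nr) N hg g.length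
  have hlen := sc_roots_rounds (nr := nr) hsep hg Z hZ hZs g.length
  have hda : (X - C a) ∣ toPoly p g := by
    rw [hZ]; exact (roots_dvd_iff Z a).2 ha
  rw [← hinv.2] at hda
  have hprime : Prime (X - C a : (ZMod p)[X]) := prime_X_sub_C a
  rw [hprime.dvd_prod_iff] at hda
  obtain ⟨q, hq, hdq⟩ := hda
  rw [List.mem_map] at hq
  obtain ⟨l, hl, rfl⟩ := hq
  have hl' := hinv.1 l hl
  have hl2 : l.length = 2 := by
    have h1 := hlen l hl
    rw [Nat.sub_self] at h1
    have h2 := hl'.2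
    have h3 : l.length ≤ 2 := by simpa only [zero_le, sup_of_le_left] using h1
    omega
  refine ⟨l.headD 0, ?_, ?_⟩
  · unfold scRootShiftsN
    rw [List.mem_map]
    refine ⟨l, ?_, rfl⟩
    rw [List.mem_filter]
    exact ⟨hl, by simpa using hl2⟩
  · have hld := hl'.1.length hp.one_lt
    have heq : (X - C a : (ZMod p)[X]) = toPoly p l :=
      (eq_of_monic_of_dvd_of_natDegree_le (monic_X_sub_C a) (hl'.1.monic hp.one_lt) hdq
        (by rw [natDegree_X_sub_C]; omega)).symm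
    have h1 := congrArg (fun q => q.coeff 0) heq
    simp only [coeff_sub, coeff_X_zero, coeff_C_zero, zero_sub, toPoly_coeff] at h1
    rw [h1]
    cases l with
    | nil => simp at hl2
    | cons b l => rfl

end


section
variable {γ : Type} [Enc γ] {V : γ → Prop}
end

section
variable {nr : ℕ → ℕ → ℕ → List (List ℕ)} [hnrok : NrOK nr]
variable {γ α β δ : Type} [Enc γ] [Enc α] [Enc β] [Enc δ] {V : γ → Prop}

theorem pf_scSplitRoundN (HPF : PFStmt) {P N : γ → ℕ} {L : γ → List (List ℕ)} (hP : PF V P) (hN : PF V N)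
    (hL : PF V L) (hp : ∀ c, V c → (P c).Prime) (hNB : PolyB V N)
    (hLm : ∀ c, V c → ∀ l ∈ L c, MonL (P c) l ∧ 2 ≤ l.length) :
    PF V (fun c => Vale.Agent.P319.scSplitRoundN nr (P c) (N c) (L c)) := by
  unfold Vale.Agent.P319.scSplitRoundN
  refine PF.flatMap (W := fun x => V x.1 ∧ (MonL (P x.1) x.2 ∧ 2 ≤ x.2.length))
    (V := V) (l := L) (f := fun (c : γ) (l : List ℕ) => (Vale.Agent.P319.scTestsForN nr (P c) (N c) l).foldl
      (Vale.Agent.P319.refineL (P c)) [l]) ?_ hL (fun c hc l hl => ⟨hc, hLm c hc l hl⟩)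
  set W1 : γ × List ℕ → Prop := fun x => V x.1 ∧ (MonL (P x.1) x.2 ∧ 2 ≤ x.2.length) with hW1
  have hP1 : PF W1 (fun x => P x.1) := PF.comp_fst hP (fun _ h => h.1)
  have hN1 : PF W1 (fun x => N x.1) := PF.comp_fst hN (fun _ h => h.1)
  have hl1 : PF W1 (fun x => x.2) := PF.snd PF.id
  have hNB1 : PolyB W1 (fun x => N x.1) := PolyB.comp_fst hNB (fun _ h => h.1)
  have hlen : PolyB W1 (fun x => x.2.length) := PolyB.length hl1
  have inv : ∀ x, W1 x → ∀ U : List (List ℕ), (∀ u ∈ U, Bdd (P x.1) u) →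
      PInv (P x.1) x.2 (U.foldl (Vale.Agent.P319.refineL (P x.1)) [x.2]) := by
    intro x hx U hU
    have : Fact (P x.1).Prime := ⟨hp _ hx.1⟩
    refine foldl_inv hU ⟨?_, by simp⟩
    intro h hh
    rw [List.mem_singleton] at hh
    rw [hh]
    exact hx.2
  refine PF.foldl (V := W1) (step := fun x L u => Vale.Agent.P319.refineL (P x.1) L u)
    (l := fun x => Vale.Agent.P319.scTestsForN nr (P x.1) (N x.1) x.2) (s := fun x => [x.2])
    (W := fun y => W1 y.1 ∧ PInv (P y.1.1) y.1.2 y.2.1 ∧ Bdd (P y.1.1) y.2.2) ?_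
    (HPF nr _ _ _ _ _ hP1 hN1 hl1 (fun x hx => hp _ hx.1) hNB1 (fun x hx => hx.2))
    (PF.cons hl1 (PF.const []))
    (fun x => x.2.length * (x.2.length * (Nat.size (P x.1) + 2) + 1 + 1) + 1) ?_ ?_ ?_
  · exact PF.refineL (PF.comp_fst hP1 (fun _ h => h.1)) (PF.fst (PF.snd PF.id))
      (PF.snd (PF.snd PF.id)) (fun y hy => hp _ hy.1.1) (fun y hy h hh => (hy.2.1.1 h hh).1)
      (fun y hy => hy.2.2)
  · exact PolyB.add (PolyB.mul hlen (PolyB.add (PolyB.bd hP1 hlen) (PolyB.const 1))) (PolyB.const 1)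
  · intro x hx l₁ a l₂ h
    have : Fact (P x.1).Prime := ⟨hp _ hx.1⟩
    have hb := scTestsFor_bdd (nr := nr) (p := P x.1) (N x.1) x.2
    refine ⟨hx, inv x hx l₁ (fun u hu => hb u (by rw [h]; simp [hu])), hb a (by rw [h]; simp)⟩
  · intro x hx l₁ l₂ h
    have : Fact (P x.1).Prime := ⟨hp _ hx.1⟩
    have hb := scTestsFor_bdd (nr := nr) (p := P x.1) (N x.1) x.2
    exact PInv.sz_le hx.2.1 (inv x hx l₁ (fun u hu => hb u (by rw [h]; simp [hu])))

theorem pf_scRootLN (HPF : PFStmt) {P N : γ → ℕ} {g : γ → List ℕ} (hP : PF V P) (hN : PF V N) (hg : PF V g)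
    (hp : ∀ c, V c → (P c).Prime) (hNB : PolyB V N) (hgm : ∀ c, V c → MonL (P c) (g c)) :
    PF V (fun c => Vale.Agent.P319.scRootLN nr (P c) (N c) (g c)) := by
  have hlen := PolyB.length hg
  refine PF.iterate (V := V) (N := fun c => (g c).length)
    (s := fun c => [g c].filter fun l => decide (2 ≤ l.length))
    (step := fun c L => Vale.Agent.P319.scSplitRoundN nr (P c) (N c) L)
    (W := fun x => V x.1 ∧ PInv (P x.1) (g x.1) x.2) ?_ (PF.length hg) hlen ?_
    (fun c => (g c).length * ((g c).length * (Nat.size (P c) + 2) + 1 + 1) + 1) ?_ ?_ ?_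
  · exact pf_scSplitRoundN (nr := nr) HPF (PF.comp_fst hP (fun _ h => h.1)) (PF.comp_fst hN (fun _ h => h.1))
      (PF.snd PF.id) (fun x hx => hp _ hx.1) (PolyB.comp_fst hNB (fun _ h => h.1))
      (fun x hx l hl => hx.2.1 l hl)
  · exact PF.filter (W := fun _ => True) (f := fun _ (l : List ℕ) => decide (2 ≤ l.length))
      (PF.decide_le (PF.const 2) (PF.length (PF.snd PF.id))) (PF.cons hg (PF.const []))
      (fun _ _ _ _ => trivial)
  · exact PolyB.add (PolyB.mul hlen (PolyB.add (PolyB.bd hP hlen) (PolyB.const 1))) (PolyB.const 1)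
  · intro c hc i _
    have : Fact (P c).Prime := ⟨hp c hc⟩
    exact ⟨hc, sc_rootL_inv (nr := nr) (N c) (hgm c hc) i⟩
  · intro c hc i _
    have : Fact (P c).Prime := ⟨hp c hc⟩
    exact PInv.sz_le (hgm c hc) (sc_rootL_inv (nr := nr) (N c) (hgm c hc) i)

theorem pf_scRootShiftsN (HPF : PFStmt) {P N : γ → ℕ} {g : γ → List ℕ} (hP : PF V P) (hN : PF V N) (hg : PF V g)
    (hp : ∀ c, V c → (P c).Prime) (hNB : PolyB V N) (hgm : ∀ c, V c → MonL (P c) (g c)) :
    PF V (fun c => Vale.Agent.P319.scRootShiftsN nr (P c) (N c) (g c)) := by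
  unfold Vale.Agent.P319.scRootShiftsN
  refine PF.map (W := fun _ => True) (f := fun _ (l : List ℕ) => l.headD 0)
    (PF.headD (PF.snd PF.id) (PF.const 0)) ?_ (fun _ _ _ _ => trivial)
  exact PF.filter (W := fun _ => True) (f := fun _ (l : List ℕ) => decide (l.length = 2))
    (PF.decide_eq (PF.length (PF.snd PF.id)) (PF.const 2)) (pf_scRootLN (nr := nr) HPF hP hN hg hp hNB hgm)
    (fun _ _ _ _ => trivial)

theorem pf_scShiftsOfN (HPF : PFStmt) {P N : γ → ℕ} {f : γ → List ℕ} (hP : PF V P) (hN : PF V N) (hf : PF V f)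
    (hNB : PolyB V N) (hp : ∀ c, V c → (P c).Prime) (hm : ∀ c, V c → MonL (P c) (f c)) :
    PF V (fun c => Vale.Agent.P319.scShiftsOfN nr (P c) (N c) (f c)) := by
  refine PF.flatMap (W := fun x : γ × List ℕ => V x.1 ∧ MonL (P x.1) x.2)
    (f := fun c l => (List.range (f c).length).flatMap fun d =>
      (List.range (2 * (f c).length)).flatMap fun j =>
        Vale.Agent.P319.scRootShiftsN nr (P c) (N c) (Vale.Agent.P319.valPoly (P c) l d j)) ?_
    (pfmain_ddf hP hf hp hm) ?_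
  · have hf1 : PF (fun x : γ × List ℕ => V x.1 ∧ MonL (P x.1) x.2) (fun x => f x.1) :=
      PF.comp_fst hf (fun _ h => h.1)
    refine PF.flatMap (W := fun y : (γ × List ℕ) × ℕ =>
        (V y.1.1 ∧ MonL (P y.1.1) y.1.2) ∧ y.2 < (f y.1.1).length)
      (f := fun (x : γ × List ℕ) d => (List.range (2 * (f x.1).length)).flatMap fun j =>
        Vale.Agent.P319.scRootShiftsN nr (P x.1) (N x.1) (Vale.Agent.P319.valPoly (P x.1) x.2 d j)) ?_
      (PF.range (PF.length hf1) (PolyB.length hf1)) (fun c hc a ha => ⟨hc, List.mem_range.1 ha⟩)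
    have hf2 : PF (fun y : (γ × List ℕ) × ℕ =>
        (V y.1.1 ∧ MonL (P y.1.1) y.1.2) ∧ y.2 < (f y.1.1).length) (fun y => f y.1.1) :=
      PF.comp hf (PF.fst (PF.fst PF.id)) (fun y hy => hy.1.1)
    refine PF.flatMap (W := fun z : ((γ × List ℕ) × ℕ) × ℕ =>
        ((V z.1.1.1 ∧ MonL (P z.1.1.1) z.1.1.2) ∧ z.1.2 < (f z.1.1.1).length) ∧
          z.2 < 2 * (f z.1.1.1).length)
      (f := fun (y : (γ × List ℕ) × ℕ) j =>
        Vale.Agent.P319.scRootShiftsN nr (P y.1.1) (N y.1.1)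
          (Vale.Agent.P319.valPoly (P y.1.1) y.1.2 y.2 j)) ?_
      (PF.range (PF.mul (PF.const 2) (PF.length hf2)) (PolyB.mul (PolyB.const 2)
        (PolyB.length hf2))) (fun c hc a ha => ⟨hc, List.mem_range.1 ha⟩)
    have hP3 : PF (fun z : ((γ × List ℕ) × ℕ) × ℕ =>
        ((V z.1.1.1 ∧ MonL (P z.1.1.1) z.1.1.2) ∧ z.1.2 < (f z.1.1.1).length) ∧
          z.2 < 2 * (f z.1.1.1).length) (fun z => P z.1.1.1) :=
      PF.comp hP (PF.fst (PF.fst (PF.fst PF.id))) (fun z hz => hz.1.1.1)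
    have hN3 : PF (fun z : ((γ × List ℕ) × ℕ) × ℕ =>
        ((V z.1.1.1 ∧ MonL (P z.1.1.1) z.1.1.2) ∧ z.1.2 < (f z.1.1.1).length) ∧
          z.2 < 2 * (f z.1.1.1).length) (fun z => N z.1.1.1) :=
      PF.comp hN (PF.fst (PF.fst (PF.fst PF.id))) (fun z hz => hz.1.1.1)
    have hf3 : PF (fun z : ((γ × List ℕ) × ℕ) × ℕ =>
        ((V z.1.1.1 ∧ MonL (P z.1.1.1) z.1.1.2) ∧ z.1.2 < (f z.1.1.1).length) ∧
          z.2 < 2 * (f z.1.1.1).length) (fun z => f z.1.1.1) :=
      PF.comp hf (PF.fst (PF.fst (PF.fst PF.id))) (fun z hz => hz.1.1.1)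
    have hN3B : PolyB (fun z : ((γ × List ℕ) × ℕ) × ℕ =>
        ((V z.1.1.1 ∧ MonL (P z.1.1.1) z.1.1.2) ∧ z.1.2 < (f z.1.1.1).length) ∧
          z.2 < 2 * (f z.1.1.1).length) (fun z => N z.1.1.1) :=
      PolyB.comp hNB (PolyB.of_le PolyB.sz_self (fun x _ => by simp only [sz_prod]; omega))
        (fun z hz => hz.1.1.1)
    have hl3 : PF (fun z : ((γ × List ℕ) × ℕ) × ℕ =>
        ((V z.1.1.1 ∧ MonL (P z.1.1.1) z.1.1.2) ∧ z.1.2 < (f z.1.1.1).length) ∧
          z.2 < 2 * (f z.1.1.1).length) (fun z => z.1.1.2) :=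
      PF.snd (PF.fst (PF.fst PF.id))
    refine pf_scRootShiftsN (nr := nr) HPF hP3 hN3 (PF.valPoly hP3 hl3 (PF.snd (PF.fst PF.id)) (PF.snd PF.id)
      (PolyB.of_le (PolyB.length hf3) (fun z hz => hz.1.2.le))
      (PolyB.of_le (PolyB.mul (PolyB.const 2) (PolyB.length hf3)) (fun z hz => hz.2.le))
      (fun z hz => hp _ hz.1.1.1) (fun z hz => hz.1.1.2)) (fun z hz => hp _ hz.1.1.1) hN3B ?_
    intro z hz
    have : Fact (P z.1.1.1).Prime := ⟨hp _ hz.1.1.1⟩
    exact valPoly_monL hz.1.1.2 _ _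
  · intro c hc l hl
    have : Fact (P c).Prime := ⟨hp c hc⟩
    exact ⟨hc, ((pfmain_ddf_inv (hm c hc)).1 l hl).1⟩

theorem pf_scShiftsBN (HPF : PFStmt) {P N : γ → ℕ} {f : γ → List ℕ} (hP : PF V P) (hN : PF V N) (hf : PF V f)
    (hNB : PolyB V N) (hp : ∀ c, V c → (P c).Prime) (hm : ∀ c, V c → MonL (P c) (f c)) :
    PF V (fun c => Vale.Agent.P319.scShiftsBN nr (P c) (N c) (f c)) := by
  refine PF.ite (c := fun c => P c ≤ N c) (PF.decide_le hP hN) ?_ ?_
  · exact PF.range (hP.mono (fun _ h => h.1))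
      (PolyB.of_le (PolyB.mono hNB (fun _ h => h.1)) (fun c hc => hc.2))
  · exact (pf_scShiftsOfN (nr := nr) HPF hP hN hf hNB hp hm).mono (fun _ h => h.1)

theorem sc_shiftsB_lt {p N : ℕ} [Fact p.Prime] {f : List ℕ} (hf : MonL p f) :
    ∀ t ∈ Vale.Agent.P319.scShiftsBN nr p N f, t < p := by
  intro t ht
  unfold Vale.Agent.P319.scShiftsBN at ht
  split_ifs at ht with h
  · exact List.mem_range.1 ht
  · unfold Vale.Agent.P319.scShiftsOfN at ht
    rw [List.mem_flatMap] at ht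
    obtain ⟨l, hl, ht⟩ := ht
    rw [List.mem_flatMap] at ht
    obtain ⟨d, _, ht⟩ := ht
    rw [List.mem_flatMap] at ht
    obtain ⟨j, _, ht⟩ := ht
    exact sc_rootShifts_lt (nr := nr) N (valPoly_monL ((pfmain_ddf_inv hf).1 l hl).1 d j) t ht

theorem pf_run4N (HPF : PFStmt) {P N : γ → ℕ} {cs : γ → List ℕ} (hP : PF V P) (hN : PF V N) (hcs : PF V cs)
    (hNB : PolyB V N) (hV : ∀ c, V c → (P c).Prime ∧ Bdd (P c) (cs c) ∧ toPoly (P c) (cs c) ≠ 0) :
    PF V (fun c => Vale.Agent.P319.run4N nr (P c) (N c) (cs c)) := by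
  have hp : ∀ c, V c → (P c).Prime := fun c hc => (hV c hc).1
  have hf : PF V (fun c => Vale.Agent.P319.monicL (P c) (cs c)) :=
    PF.monicL hP hcs (fun c hc => (hp c hc).one_lt) (fun c hc => (hV c hc).2.1)
  have hm : ∀ c, V c → MonL (P c) (Vale.Agent.P319.monicL (P c) (cs c)) := by
    intro c hc
    have : Fact (P c).Prime := ⟨hp c hc⟩
    exact monL_monicL (hV c hc).2.1 (hV c hc).2.2
  have hT : PF V (fun c => Vale.Agent.P319.scShiftsBN nr (P c) (N c)
      (Vale.Agent.P319.monicL (P c) (cs c))) := pf_scShiftsBN (nr := nr) HPF hP hN hf hNB hp hm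
  have hTb : ∀ c, V c → ∀ t ∈ Vale.Agent.P319.scShiftsBN nr (P c) (N c)
      (Vale.Agent.P319.monicL (P c) (cs c)), t < P c := by
    intro c hc
    have : Fact (P c).Prime := ⟨hp c hc⟩
    exact sc_shiftsB_lt (nr := nr) (hm c hc)
  have hL : PF V (fun c => Vale.Agent.P319.factorL (P c) (Vale.Agent.P319.monicL (P c) (cs c))
      (Vale.Agent.P319.scShiftsBN nr (P c) (N c) (Vale.Agent.P319.monicL (P c) (cs c)))) :=
    PF.factorL hP hf hT hp hm hTb
  have hLm : ∀ c, V c → ∀ h ∈ Vale.Agent.P319.factorL (P c)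
      (Vale.Agent.P319.monicL (P c) (cs c)) (Vale.Agent.P319.scShiftsBN nr (P c) (N c)
        (Vale.Agent.P319.monicL (P c) (cs c))), MonL (P c) h := by
    intro c hc h hh
    have : Fact (P c).Prime := ⟨hp c hc⟩
    exact ((factorL_inv (hm c hc) (hTb c hc)).1 h hh).1
  unfold Vale.Agent.P319.run4N
  refine PF.cond (PF.checkL hP hf hL hp hm hLm) ?_ (PF.const [])
  exact PF.cons (PF.pair ((PF.getLastD hcs (PF.const 0)).mono (fun _ h => h.1))
    (hL.mono (fun _ h => h.1))) (PF.const [])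

/-- input of `run4N nr`: `(p, coefficients, padding)`, budget = bit size of the whole input -/
theorem exists_machine4 (HPF : PFStmt) : ∃ A : Data → Data, PolyTime A ∧
    ∀ (p : ℕ) (_ : p.Prime) (f : (ZMod p)[X]) (_ : f ≠ 0) (w : Data), ∃ N : ℕ,
      w.dataSize ≤ N ∧ f.natDegree + 1 ≤ N ∧
      A (Data.pair (input f) w) = (enc (run4N nr p N (coefL f))).fst := by
  let _ : Enc Data := ⟨fun x => x⟩
  have hrun : PF (fun c : ℕ × List ℕ × Data => c.1.Prime ∧ Bdd c.1 c.2.1 ∧ toPoly c.1 c.2.1 ≠ 0)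
      (fun c => run4N nr c.1 (sz c) c.2.1) :=
    pf_run4N (nr := nr) HPF (PF.fst PF.id) (PF.sz PF.id) (PF.fst (PF.snd PF.id)) PolyB.sz_self (fun c hc => hc)
  obtain ⟨F, hF, hF'⟩ := hrun
  refine ⟨_, PolyTime.comp PolyTime.fst (PolyTime.comp hF (PolyTime.pair
    (PolyTime.comp PolyTime.fst PolyTime.fst) (PolyTime.pair
      (PolyTime.comp PolyTime.snd PolyTime.fst) PolyTime.snd))), ?_⟩
  intro p hp f hf w
  have : Fact p.Prime := ⟨hp⟩
  refine ⟨sz (p, coefL f, w), ?_, ?_, ?_⟩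
  · show w.dataSize ≤ (Data.pair (Data.num p) (Data.pair (enc (coefL f)) w)).dataSize
    simp only [Data.size_pair]
    omega
  · have h1 := length_lt_sz (coefL f)
    rw [coefL_length] at h1
    have h2 : sz (coefL f) ≤ sz (p, coefL f, w) := by
      simp only [sz_prod]
      omega
    omega
  · have h1 := hF' (p, coefL f, w) ⟨hp, coefL_bdd f, by rwa [toPoly_coefL]⟩
    have h2 : (enc (p, coefL f, w) : Data) =
        Data.pair (Data.num p) (Data.pair (enc (coefL f)) w) := rfl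
    rw [h2, ← polyData_eq] at h1
    show Data.fst (F (Data.pair (Data.num p) (Data.pair (polyData f) w))) = _
    rw [h1]

end

section
variable {nr : ℕ → ℕ → ℕ → List (List ℕ)}
variable {p : ℕ} [hpf : Fact p.Prime]

theorem sc_asm_shiftsB_lt {f : List ℕ} (hf : MonL p f) (N : ℕ) : ∀ t ∈ scShiftsBN nr p N f, t < p := by
  intro t ht
  unfold scShiftsBN at ht
  split_ifs at ht with h
  · exact List.mem_range.1 ht
  · unfold scShiftsOfN at ht
    simp only [List.mem_flatMap] at ht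
    obtain ⟨l, hl, d, _, j, _, ht⟩ := ht
    have hinv : PInv p f ((ddfTests p f).foldl (refineL p)
        ([f].filter fun l => decide (2 ≤ l.length))) := foldl_inv (ddfTests_bdd hf) (start_inv hf)
    exact sc_rootShifts_lt (nr := nr) N (valPoly_monL (hinv.1 l hl).1 d j) t ht

/-- if all pieces are irreducible the output is the factorization -/
theorem sc_asm_ok {f : (ZMod p)[X]} (hf : f ≠ 0) (N : ℕ)
    (h : checkL p (monicL p (coefL f)) (factorL p (monicL p (coefL f))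
      (scShiftsBN nr p N (monicL p (coefL f)))) = true) :
    IsFactorization f (enc (run4N nr p N (coefL f))).fst := by
  have hp := hpf.out
  have hb := coefL_bdd f
  have h0 : toPoly p (coefL f) ≠ 0 := by rwa [toPoly_coefL]
  have hm := monL_monicL hb h0
  have hTb := sc_asm_shiftsB_lt (nr := nr) hm N
  have hinv := factorL_inv hm hTb
  have hchk := checkL_iff hm hinv
  unfold run4N
  rw [if_pos h]
  refine ⟨(factorL p (monicL p (coefL f)) (scShiftsBN nr p N (monicL p (coefL f)))).map (toPoly p),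
    ?_, ?_, ?_⟩
  · intro h' hh'
    obtain ⟨l, hl, rfl⟩ := List.mem_map.1 hh'
    exact ⟨((hinv.1 l hl).1).monic hp.one_lt, hchk.1 h l hl⟩
  · rw [hinv.2]
    rcases monicL_spec hb with h1 | ⟨_, _, _, c, hc, h4⟩
    · exact absurd h1.1 h0
    · rw [toPoly_coefL] at h4
      have h5 : (toPoly p (monicL p (coefL f))).leadingCoeff = 1 := hm.monic hp.one_lt
      rw [h4, leadingCoeff_mul, leadingCoeff_C] at h5
      rw [h4, ← mul_assoc, ← C_mul, mul_comm, mul_comm f.leadingCoeff c, h5]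
      simp
  · rw [List.map_map]
    have e1 : (polyData ∘ toPoly p : List ℕ → Data) =
        fun l => enc (coefL (toPoly p l)) := by
      funext l; exact polyData_eq _
    have e2 : (factorL p (monicL p (coefL f)) (scShiftsBN nr p N (monicL p (coefL f)))).map
        (polyData ∘ toPoly p) =
        (factorL p (monicL p (coefL f)) (scShiftsBN nr p N (monicL p (coefL f)))).map enc := by
      apply List.map_congr_left
      intro l hl
      rw [e1]
      show enc (coefL (toPoly p l)) = enc l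
      rw [coefL_toPoly (hinv.1 l hl).1]
    rw [e2, listData_map_enc, ← coefL_getLastD]
    rfl

theorem run4_sound {f : (ZMod p)[X]} (hf : f ≠ 0) (N : ℕ) :
    (enc (run4N nr p N (coefL f))).fst = Data.num 0 ∨
      IsFactorization f (enc (run4N nr p N (coefL f))).fst := by
  by_cases h : checkL p (monicL p (coefL f)) (factorL p (monicL p (coefL f))
      (scShiftsBN nr p N (monicL p (coefL f)))) = true
  · exact Or.inr (sc_asm_ok (nr := nr) hf N h)
  · left
    unfold run4N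
    rw [if_neg h]
    rfl

end


/-- completeness of `run4N nr` -/
theorem run4_complete {nr : ℕ → ℕ → ℕ → List (List ℕ)} {C₀ : ℕ} (hSEP : SEPStmtSC C₀ nr) {p : ℕ}
    [hpf : Fact p.Prime] (s : ℕ) (f : (ZMod p)[X]) (hf : f ≠ 0) (hS : FewFac s f)
    (N : ℕ) (hN : s ^ (C₀ * scE s) ≤ N) (hfN : f.natDegree + 1 ≤ N)
    (hnr : p ≤ N ∨ ∀ r : ℕ, r.Prime → r ≤ s → nr p N r ≠ []) :
      IsFactorization f (enc (run4N nr p N (coefL f))).fst := by
  classical
  have hp := hpf.out
  have hb := coefL_bdd f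
  have h0 : toPoly p (coefL f) ≠ 0 := by rwa [toPoly_coefL]
  have hm := monL_monicL hb h0
  have hTb := sc_asm_shiftsB_lt (nr := nr) hm N
  have hinv := factorL_inv hm hTb
  apply sc_asm_ok (nr := nr) hf N
  apply (checkL_iff hm hinv).2
  have hdvd : toPoly p (monicL p (coefL f)) ∣ f := by
    rcases monicL_spec hb with h1 | ⟨_, _, _, c, hc, h4⟩
    · exact absurd h1.1 h0
    · rw [h4, toPoly_coefL]
      refine ⟨C c⁻¹, ?_⟩
      rw [mul_right_comm, ← C_mul, mul_inv_cancel₀ hc, C_1, one_mul]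
  have hlenf : (monicL p (coefL f)).length ≤ N := by
    rcases monicL_spec hb with h1 | ⟨_, _, h5, _⟩
    · exact absurd h1.1 h0
    · rw [coefL_length] at h5; omega
  set g := monicL p (coefL f) with hg
  by_cases hpN : p ≤ N
  · have e : scShiftsBN nr p N g = List.range p := by unfold scShiftsBN; rw [if_pos hpN]
    rw [e] at hTb ⊢
    exact factorL_complete hm hTb sep_range
  · have hNp : N < p := by omega
    replace hnr := hnr.resolve_left hpN
    refine factorL_complete' hm hTb ?_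
    intro P hPi hPm hPg j hj
    -- find the piece which contains `P`
    have hpinv : PInv p g ((ddfTests p g).foldl (refineL p)
        ([g].filter fun l => decide (2 ≤ l.length))) := foldl_inv (ddfTests_bdd hm) (start_inv hm)
    have hex : ∃ l ∈ ((ddfTests p g).foldl (refineL p)
        ([g].filter fun l => decide (2 ≤ l.length))), P ∣ toPoly p l := by
      have h1 := hPg
      rw [← hpinv.2] at h1
      obtain ⟨q, hq, hPq⟩ := (Prime.dvd_prod_iff hPi.prime).1 h1
      obtain ⟨l, hl, rfl⟩ := List.mem_map.1 hq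
      exact ⟨l, hl, hPq⟩
    obtain ⟨l, hl, hPl⟩ := hex
    obtain ⟨d, hd1, hdf, PP, hPP, hlP⟩ := ddf_pieces hm l hl
    have hPmem : P ∈ PP := by
      have h1 := hPl
      rw [hlP] at h1
      obtain ⟨Q, hQ, hPQ⟩ := (Prime.dvd_finsetProd_iff hPi.prime _).1 h1
      have h2 : P = Q := eq_of_monic_of_associated hPm (hPP Q hQ).1
        (hPi.associated_of_dvd (hPP Q hQ).2.1 hPQ)
      rw [h2]; exact hQ
    have hPd : P.natDegree = d := (hPP P hPmem).2.2
    have hlM := (hpinv.1 l hl).1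
    have hllen : l.length < p := by
      have h1 := hlM.length hp.one_lt
      have h2 := hm.length hp.one_lt
      have h3 := natDegree_le_of_dvd (hpinv.dvd hl) (hm.monic hp.one_lt).ne_zero
      omega
    obtain ⟨Z, hZc, hZm, hZp⟩ := valPoly_spec hlM d hd1 j PP hPP hlP hllen
    have hPPs : PP.card ≤ s := by
      apply hS d
      intro Q hQ
      refine ⟨(hPP Q hQ).1, (hPP Q hQ).2.1, (hPP Q hQ).2.2, ?_⟩
      refine dvd_trans ?_ ((hpinv.dvd hl).trans hdvd)
      rw [hlP]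
      exact Finset.dvd_prod_of_mem _ hQ
    obtain ⟨t, ht, hte⟩ := sc_rootShifts_complete (nr := nr) (N := N) (s := s) (by
      intro l' Z' hl' hZ' h2 hs'
      exact hSEP p N l' Z' hl' hZ' h2 ⟨s, hs', hN⟩ hNp
        (fun r hr hrZ => hnr r hr (hrZ.trans hs'))) (valPoly_monL hlM d j) Z hZp
      (hZc.trans hPPs) _ (hZm P hPmem)
    refine ⟨t, ?_, hte⟩
    unfold scShiftsBN
    rw [if_neg hpN]
    unfold scShiftsOfN
    simp only [List.mem_flatMap]
    exact ⟨l, hl, d, List.mem_range.2 hdf, j, List.mem_range.2 (by omega), ht⟩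


/-- the machine without padding -/
theorem exists_machineK4 (HPF : PFStmt) (nr : ℕ → ℕ → ℕ → List (List ℕ)) [NrOK nr] (K : ℕ) :
    ∃ A : Data → Data, PolyTime A ∧
    ∀ (p : ℕ) (_ : p.Prime) (f : (ZMod p)[X]) (_ : f ≠ 0), ∃ N : ℕ,
      Nat.size p ^ K ≤ N ∧ f.natDegree + 1 ≤ N ∧ K ≤ N ∧
      A (input f) = (enc (run4N nr p N (coefL f))).fst := by
  have hB : PolyB (fun c : ℕ × List ℕ => c.1.Prime ∧ Bdd c.1 c.2 ∧ toPoly c.1 c.2 ≠ 0)
      (fun c => sz c ^ (K + 1) + K) :=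
    PolyB.add (PolyB.pow PolyB.sz_self (K + 1)) (PolyB.const K)
  have hrun : PF (fun c : ℕ × List ℕ => c.1.Prime ∧ Bdd c.1 c.2 ∧ toPoly c.1 c.2 ≠ 0)
      (fun c => run4N nr c.1 (sz c ^ (K + 1) + K) c.2) :=
    pf_run4N (nr := nr) HPF (PF.fst PF.id) (PF.add (PF.powNat (PF.sz PF.id) (PF.const (K + 1))
      (PolyB.const (K + 1))) (PF.const K)) (PF.snd PF.id) hB (fun c hc => hc)
  obtain ⟨F, hF, hF'⟩ := hrun
  refine ⟨_, PolyTime.comp PolyTime.fst hF, ?_⟩
  intro p hp f hf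
  have : Fact p.Prime := ⟨hp⟩
  have hszp : Nat.size p ≤ sz (p, coefL f) := by
    have h0 : sz (p, coefL f) = sz p + sz (coefL f) + 1 := rfl
    have h00 : sz p = Nat.size p + 1 := rfl
    omega
  have hpos : 1 ≤ sz (p, coefL f) := sz_pos _
  refine ⟨sz (p, coefL f) ^ (K + 1) + K, ?_, ?_, Nat.le_add_left _ _, ?_⟩
  · calc Nat.size p ^ K ≤ sz (p, coefL f) ^ K := Nat.pow_le_pow_left hszp K
      _ ≤ sz (p, coefL f) ^ (K + 1) := Nat.pow_le_pow_right hpos (Nat.le_succ K)
      _ ≤ _ := Nat.le_add_right _ _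
  · have h1 := length_lt_sz (coefL f)
    rw [coefL_length] at h1
    have h2 : sz (coefL f) ≤ sz (p, coefL f) := by
      simp only [sz_prod]
      omega
    have h3 : sz (p, coefL f) ^ 1 ≤ sz (p, coefL f) ^ (K + 1) :=
      Nat.pow_le_pow_right hpos (by omega)
    rw [pow_one] at h3
    omega
  · have h1 := hF' (p, coefL f) ⟨hp, coefL_bdd f, by rwa [toPoly_coefL]⟩
    have h2 : (enc (p, coefL f) : Data) =
        Data.pair (Data.num p) (enc (coefL f)) := rfl
    rw [h2, ← polyData_eq] at h1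
    show Data.fst (F (Data.pair (Data.num p) (polyData f))) = _
    rw [h1]

/-- **ALG-ASM** -/
theorem mach_of (HPF : PFStmt) (C₀ : ℕ) (nr : ℕ → ℕ → ℕ → List (List ℕ)) [NrOK nr]
    (hSEP : SEPStmtSC C₀ nr) : MachStmt C₀ nr := by
  obtain ⟨A, hA, hA'⟩ := exists_machine4 (nr := nr) HPF
  refine ⟨A, hA, ?_, ?_⟩
  · intro p hp f hf w
    have : Fact p.Prime := ⟨hp⟩
    obtain ⟨N, _, _, h3⟩ := hA' p hp f hf w
    rw [h3]
    exact run4_sound hf N
  · intro p hp f hf s hs hS w hw hnr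
    have : Fact p.Prime := ⟨hp⟩
    obtain ⟨N, h1, h2, h3⟩ := hA' p hp f hf w
    rw [h3]
    refine run4_complete hSEP s f hf hS N (hw.trans h1) h2 ?_
    by_cases hpN : p ≤ N
    · exact Or.inl hpN
    · exact Or.inr fun r hr hrs => hnr N h1 (by omega) r hr hrs

/-- the version without padding: the budget is `(log p) ^ C` for fixed `s` -/
def PolyStmt4 (C₀ : ℕ) (nr : ℕ → ℕ → ℕ → List (List ℕ)) : Prop :=
  ∀ K : ℕ, ∃ A : Data → Data, PolyTime A ∧
    (∀ (p : ℕ) (_ : p.Prime) (f : (ZMod p)[X]) (_ : f ≠ 0),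
      A (input f) = Data.num 0 ∨ IsFactorization f (A (input f))) ∧
    ∀ (p : ℕ) (_ : p.Prime) (f : (ZMod p)[X]) (_ : f ≠ 0) (s : ℕ), FewFac s f →
      s ^ (C₀ * scE s) ≤ K →
        (∀ N : ℕ, Nat.size p ^ K ≤ N → K ≤ N → N < p → ∀ r : ℕ, r.Prime → r ≤ s → nr p N r ≠ []) →
        IsFactorization f (A (input f))

theorem poly4_of (HPF : PFStmt) (C₀ : ℕ) (nr : ℕ → ℕ → ℕ → List (List ℕ)) [NrOK nr]
    (hSEP : SEPStmtSC C₀ nr) : PolyStmt4 C₀ nr := by
  intro K
  obtain ⟨A, hA, hA'⟩ := exists_machineK4 HPF nr K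
  refine ⟨A, hA, ?_, ?_⟩
  · intro p hp f hf
    have : Fact p.Prime := ⟨hp⟩
    obtain ⟨N, _, _, _, h3⟩ := hA' p hp f hf
    rw [h3]
    exact run4_sound hf N
  · intro p hp f hf s hS hK hnr
    have : Fact p.Prime := ⟨hp⟩
    obtain ⟨N, h1, h2, h3, h4⟩ := hA' p hp f hf
    rw [h4]
    refine run4_complete hSEP s f hf hS N (hK.trans h3) h2 ?_
    by_cases hpN : p ≤ N
    · exact Or.inl hpN
    · exact Or.inr fun r hr hrs => hnr N h1 h3 (by omega) r hr hrs

end Vale.Agent.P319.SC
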