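import Vale.Agent.P319.SC.Iface

/-! P319, block SC: basics for coherent configurations with `m` levels. -/

namespace Vale.Agent.P319.SC

open Finset

set_option linter.all false

section general

theorem exists_equiv_of_card {V ι : Type} [Fintype V] [DecidableEq V] [DecidableEq ι] (a b : V → ι)
    (h : ∀ i, (univ.filter fun z => a z = i).card = (univ.filter fun z => b z = i).card) :
    ∃ e : V ≃ V, ∀ z, a z = b (e z) := by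
  have h1 : ∀ i, Nonempty ({z // a z = i} ≃ {z // b z = i}) := by
    intro i
    refine ⟨Fintype.equivOfCardEq ?_⟩
    rw [Fintype.card_subtype, Fintype.card_subtype]
    exact h i
  have e : ∀ i, {z // a z = i} ≃ {z // b z = i} := fun i => (h1 i).some
  refine ⟨(Equiv.sigmaFiberEquiv a).symm.trans ((Equiv.sigmaCongrRight e).trans
    (Equiv.sigmaFiberEquiv b)), fun z => ?_⟩
  exact ((e (a z)) ⟨z, rfl⟩).2.symm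

end general

variable {V ι : Type} [Fintype V] [DecidableEq V] [DecidableEq ι] {m : ℕ} (𝒞 : Cfg V ι m)

/-! ### Functions which depend on the colour only -/

/-- `F v` depends only on the colour of `(v_0, …, v_{k-1})` -/
def Cfg.InvF (k : ℕ) {K : Type*} (F : (ℕ → V) → K) : Prop :=
  ∀ v w, 𝒞.col k v = 𝒞.col k w → F v = F w

variable {𝒞}

theorem Cfg.ext_equiv (𝒞 : Cfg V ι m) {k : ℕ} (hk : k < m) {v w : ℕ → V}
    (h : 𝒞.col k v = 𝒞.col k w) :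
    ∃ e : V ≃ V, ∀ z, 𝒞.col (k + 1) (ins k v z) = 𝒞.col (k + 1) (ins k w (e z)) :=
  exists_equiv_of_card _ _ (𝒞.ext k hk v w h)

theorem Cfg.InvF.subst {j k : ℕ} (hj : j ≤ m) (hk : k ≤ m) (f : ℕ → ℕ) (hf : ∀ i < j, f i < k)
    {K : Type*} {F : (ℕ → V) → K} (h : 𝒞.InvF j F) : 𝒞.InvF k (fun v => F (v ∘ f)) :=
  fun v w hvw => h _ _ (𝒞.sub j k hj hk f hf v w hvw)

theorem Cfg.InvF.sum {k : ℕ} (hk : k < m) {K : Type*} [AddCommMonoid K] {F : (ℕ → V) → K}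
    (h : 𝒞.InvF (k + 1) F) : 𝒞.InvF k (fun v => ∑ z, F (ins k v z)) := by
  intro v w hvw
  obtain ⟨e, he⟩ := 𝒞.ext_equiv hk hvw
  simp only
  rw [← Equiv.sum_comp e fun z => F (ins k w z)]
  exact Finset.sum_congr rfl fun z _ => h _ _ (he z)

/-! ### Colours of triples and quadruples -/

/-- the colour of a triple -/
def Cfg.c3 (𝒞 : Cfg V ι m) (a b c : V) : ι := 𝒞.col 3 (ins 2 (ins 1 (fun _ => a) b) c)

/-- the colour of a quadruple -/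
def Cfg.c4 (𝒞 : Cfg V ι m) (a b c d : V) : ι :=
  𝒞.col 4 (ins 3 (ins 2 (ins 1 (fun _ => a) b) c) d)

theorem Cfg.fix_c1 (𝒞 : Cfg V ι (m + 1)) (h : 1 ≤ m) (x a : V) : (𝒞.fix x).c1 a = 𝒞.c2 x a := by
  refine 𝒞.dep 2 (by omega) _ _ fun i hi => ?_
  have : i = 0 ∨ i = 1 := by omega
  rcases this with rfl | rfl <;> simp [ins]

theorem Cfg.fix_c2 (𝒞 : Cfg V ι (m + 1)) (h : 2 ≤ m) (x a b : V) :
    (𝒞.fix x).c2 a b = 𝒞.c3 x a b := by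
  refine 𝒞.dep 3 (by omega) _ _ fun i hi => ?_
  have : i = 0 ∨ i = 1 ∨ i = 2 := by omega
  rcases this with rfl | rfl | rfl <;> rfl

theorem Cfg.fix_c3 (𝒞 : Cfg V ι (m + 1)) (h : 3 ≤ m) (x a b c : V) :
    (𝒞.fix x).c3 a b c = 𝒞.c4 x a b c := by
  refine 𝒞.dep 4 (by omega) _ _ fun i hi => ?_
  have : i = 0 ∨ i = 1 ∨ i = 2 ∨ i = 3 := by omega
  rcases this with rfl | rfl | rfl | rfl <;> rfl

/-- general tool: the colour of `(a, b)` as the colour of any tuple with these first coordinates -/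
theorem Cfg.c1_eq (𝒞 : Cfg V ι m) (h : 1 ≤ m) (v : ℕ → V) : 𝒞.col 1 v = 𝒞.c1 (v 0) :=
  𝒞.dep 1 h _ _ fun i hi => by
    have : i = 0 := by omega
    subst this; rfl

theorem Cfg.c2_eq (𝒞 : Cfg V ι m) (h : 2 ≤ m) (v : ℕ → V) : 𝒞.col 2 v = 𝒞.c2 (v 0) (v 1) :=
  𝒞.dep 2 h _ _ fun i hi => by
    have : i = 0 ∨ i = 1 := by omega
    rcases this with rfl | rfl <;> simp [ins]

theorem Cfg.c3_eq (𝒞 : Cfg V ι m) (h : 3 ≤ m) (v : ℕ → V) : 𝒞.col 3 v = 𝒞.c3 (v 0) (v 1) (v 2) :=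
  𝒞.dep 3 h _ _ fun i hi => by
    have : i = 0 ∨ i = 1 ∨ i = 2 := by omega
    rcases this with rfl | rfl | rfl <;> simp [ins]

theorem Cfg.c4_eq (𝒞 : Cfg V ι m) (h : 4 ≤ m) (v : ℕ → V) :
    𝒞.col 4 v = 𝒞.c4 (v 0) (v 1) (v 2) (v 3) :=
  𝒞.dep 4 h _ _ fun i hi => by
    have : i = 0 ∨ i = 1 ∨ i = 2 ∨ i = 3 := by omega
    rcases this with rfl | rfl | rfl | rfl <;> simp [ins]

variable {a b c d a' b' c' d' : V}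

theorem Cfg.c1_of_c2 (𝒞 : Cfg V ι m) (hm : 2 ≤ m) (h : 𝒞.c2 a b = 𝒞.c2 a' b') :
    𝒞.c1 a = 𝒞.c1 a' ∧ 𝒞.c1 b = 𝒞.c1 b' := by
  have h0 := 𝒞.sub 1 2 (by omega) hm (fun _ => 0) (by simp) _ _ h
  have h1 := 𝒞.sub 1 2 (by omega) hm (fun _ => 1) (by simp) _ _ h
  rw [𝒞.c1_eq (by omega), 𝒞.c1_eq (by omega)] at h0 h1
  simpa [ins] using And.intro h0 h1

theorem Cfg.c2_swap (𝒞 : Cfg V ι m) (hm : 2 ≤ m) (h : 𝒞.c2 a b = 𝒞.c2 a' b') :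
    𝒞.c2 b a = 𝒞.c2 b' a' := by
  have h0 := 𝒞.sub 2 2 hm hm (fun i => 1 - i) (by intro i _; omega) _ _ h
  rw [𝒞.c2_eq hm, 𝒞.c2_eq hm] at h0
  simpa [ins] using h0

theorem Cfg.c2_swap_iff (𝒞 : Cfg V ι m) (hm : 2 ≤ m) :
    𝒞.c2 a b = 𝒞.c2 a' b' ↔ 𝒞.c2 b a = 𝒞.c2 b' a' :=
  ⟨𝒞.c2_swap hm, 𝒞.c2_swap hm⟩

theorem Cfg.c2_diag (𝒞 : Cfg V ι m) (hm : 2 ≤ m) (h : 𝒞.c1 a = 𝒞.c1 a') :
    𝒞.c2 a a = 𝒞.c2 a' a' := by
  have h0 := 𝒞.sub 2 1 hm (by omega) (fun i => 0) (by simp) _ _ h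
  rw [𝒞.c2_eq hm, 𝒞.c2_eq hm] at h0
  simpa [ins] using h0

theorem Cfg.eq_of_c2 (𝒞 : Cfg V ι m) (hm : 2 ≤ m) (h : 𝒞.c2 a b = 𝒞.c2 a' b') : a = b ↔ a' = b' := by
  constructor
  · intro hab
    have := 𝒞.eqv 2 hm _ _ h 0 (by omega) 1 (by omega) (by simpa [ins] using hab)
    simpa [ins] using this
  · intro hab
    have := 𝒞.eqv 2 hm _ _ h.symm 0 (by omega) 1 (by omega) (by simpa [ins] using hab)
    simpa [ins] using this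

theorem Cfg.c2_ne_swap (𝒞 : Cfg V ι m) (hm : 2 ≤ m) (h : a ≠ b) : 𝒞.c2 b a ≠ 𝒞.c2 a b := by
  have h0 := 𝒞.anti2 0 (by omega) (ins 1 (fun _ => a) b) (by simpa [ins] using h)
  rw [𝒞.c2_eq hm, 𝒞.c2_eq hm] at h0
  simpa [ins, sw] using h0

theorem Cfg.c3_sub (𝒞 : Cfg V ι m) (hm : 3 ≤ m) (h : 𝒞.c3 a b c = 𝒞.c3 a' b' c') :
    𝒞.c2 a b = 𝒞.c2 a' b' ∧ 𝒞.c2 a c = 𝒞.c2 a' c' ∧ 𝒞.c2 b c = 𝒞.c2 b' c' := by
  have h0 := 𝒞.sub 2 3 (by omega) hm (fun i => i) (by intro i _; omega) _ _ h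
  have h1 := 𝒞.sub 2 3 (by omega) hm (fun i => 2 * i) (by intro i _; omega) _ _ h
  have h2 := 𝒞.sub 2 3 (by omega) hm (fun i => i + 1) (by intro i _; omega) _ _ h
  rw [𝒞.c2_eq (by omega), 𝒞.c2_eq (by omega)] at h0 h1 h2
  simpa [ins] using And.intro h0 (And.intro h1 h2)

theorem Cfg.c3_rot (𝒞 : Cfg V ι m) (hm : 3 ≤ m) (h : 𝒞.c3 a b c = 𝒞.c3 a' b' c') :
    𝒞.c3 b c a = 𝒞.c3 b' c' a' := by
  have h0 := 𝒞.sub 3 3 hm hm (fun i => if i = 2 then 0 else i + 1) (by intro i _; split_ifs <;> omega) _ _ h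
  rw [𝒞.c3_eq hm, 𝒞.c3_eq hm] at h0
  simpa [ins] using h0

theorem Cfg.c3_swap (𝒞 : Cfg V ι m) (hm : 3 ≤ m) (h : 𝒞.c3 a b c = 𝒞.c3 a' b' c') :
    𝒞.c3 a c b = 𝒞.c3 a' c' b' := by
  have h0 := 𝒞.sub 3 3 hm hm (fun i => if i = 0 then 0 else 3 - i) (by intro i _; split_ifs <;> omega) _ _ h
  rw [𝒞.c3_eq hm, 𝒞.c3_eq hm] at h0
  simpa [ins] using h0

theorem Cfg.c3_rot_ne (𝒞 : Cfg V ι m) (hm : 3 ≤ m) (h1 : a ≠ b) (h2 : a ≠ c) (h3 : b ≠ c) :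
    𝒞.c3 b c a ≠ 𝒞.c3 a b c := by
  have h0 := 𝒞.anti3 0 (by omega) (ins 2 (ins 1 (fun _ => a) b) c) (by simpa [ins] using h1)
    (by simpa [ins] using h2) (by simpa [ins] using h3)
  rw [𝒞.c3_eq hm, 𝒞.c3_eq hm] at h0
  simpa [ins, ro] using h0

theorem Cfg.c4_sub (𝒞 : Cfg V ι m) (hm : 4 ≤ m) (h : 𝒞.c4 a b c d = 𝒞.c4 a' b' c' d') :
    𝒞.c3 a b c = 𝒞.c3 a' b' c' ∧ 𝒞.c3 a b d = 𝒞.c3 a' b' d' ∧ 𝒞.c3 a c d = 𝒞.c3 a' c' d' ∧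
      𝒞.c3 b c d = 𝒞.c3 b' c' d' := by
  have h0 := 𝒞.sub 3 4 (by omega) hm (fun i => i) (by intro i _; omega) _ _ h
  have h1 := 𝒞.sub 3 4 (by omega) hm (fun i => if i = 2 then 3 else i)
    (by intro i _; split_ifs <;> omega) _ _ h
  have h2 := 𝒞.sub 3 4 (by omega) hm (fun i => if i = 0 then 0 else i + 1)
    (by intro i _; split_ifs <;> omega) _ _ h
  have h3 := 𝒞.sub 3 4 (by omega) hm (fun i => i + 1) (by intro i _; omega) _ _ h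
  rw [𝒞.c3_eq (by omega), 𝒞.c3_eq (by omega)] at h0 h1 h2 h3
  simpa [ins] using And.intro h0 (And.intro h1 (And.intro h2 h3))

theorem Cfg.c4_rot3 (𝒞 : Cfg V ι m) (hm : 4 ≤ m) (h : 𝒞.c4 a b c d = 𝒞.c4 a' b' c' d') :
    𝒞.c4 a c d b = 𝒞.c4 a' c' d' b' := by
  have h0 := 𝒞.sub 4 4 hm hm (fun i => if i = 0 then 0 else if i = 3 then 1 else i + 1)
    (by intro i _; split_ifs <;> omega) _ _ h
  rw [𝒞.c4_eq hm, 𝒞.c4_eq hm] at h0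
  simpa [ins] using h0

theorem Cfg.c4_rot (𝒞 : Cfg V ι m) (hm : 4 ≤ m) (h : 𝒞.c4 a b c d = 𝒞.c4 a' b' c' d') :
    𝒞.c4 b c d a = 𝒞.c4 b' c' d' a' := by
  have h0 := 𝒞.sub 4 4 hm hm (fun i => if i = 3 then 0 else i + 1)
    (by intro i _; split_ifs <;> omega) _ _ h
  rw [𝒞.c4_eq hm, 𝒞.c4_eq hm] at h0
  simpa [ins] using h0

/-! ### Extension of tuples -/

theorem Cfg.ext1 (𝒞 : Cfg V ι m) (hm : 2 ≤ m) (h : 𝒞.c1 a = 𝒞.c1 a') :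
    ∃ e : V ≃ V, ∀ z, 𝒞.c2 a z = 𝒞.c2 a' (e z) :=
  𝒞.ext_equiv (by omega) h

theorem Cfg.ext2 (𝒞 : Cfg V ι m) (hm : 3 ≤ m) (h : 𝒞.c2 a b = 𝒞.c2 a' b') :
    ∃ e : V ≃ V, ∀ z, 𝒞.c3 a b z = 𝒞.c3 a' b' (e z) :=
  𝒞.ext_equiv (by omega) h

theorem Cfg.ext3 (𝒞 : Cfg V ι m) (hm : 4 ≤ m) (h : 𝒞.c3 a b c = 𝒞.c3 a' b' c') :
    ∃ e : V ≃ V, ∀ z, 𝒞.c4 a b c z = 𝒞.c4 a' b' c' (e z) :=
  𝒞.ext_equiv (by omega) h

/-! ### The algebra of `Inv2` matrices -/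

section inv2

variable {K : Type*}

theorem Cfg.Inv2.add [Add K] {A B : Matrix V V K} (hA : 𝒞.Inv2 A) (hB : 𝒞.Inv2 B) :
    𝒞.Inv2 (A + B) := fun a b a' b' h => by
  rw [Matrix.add_apply, Matrix.add_apply, hA a b a' b' h, hB a b a' b' h]

theorem Cfg.Inv2.sub [Sub K] {A B : Matrix V V K} (hA : 𝒞.Inv2 A) (hB : 𝒞.Inv2 B) :
    𝒞.Inv2 (A - B) := fun a b a' b' h => by
  rw [Matrix.sub_apply, Matrix.sub_apply, hA a b a' b' h, hB a b a' b' h]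

theorem Cfg.Inv2.neg [Neg K] {A : Matrix V V K} (hA : 𝒞.Inv2 A) :
    𝒞.Inv2 (-A) := fun a b a' b' h => by
  rw [Matrix.neg_apply, Matrix.neg_apply, hA a b a' b' h]

theorem Cfg.Inv2.zero [Zero K] : 𝒞.Inv2 (0 : Matrix V V K) := fun a b a' b' h => rfl

theorem Cfg.Inv2.smul {R : Type*} [SMul R K] {A : Matrix V V K} (r : R) (hA : 𝒞.Inv2 A) :
    𝒞.Inv2 (r • A) := fun a b a' b' h => by
  rw [Matrix.smul_apply, Matrix.smul_apply, hA a b a' b' h]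

theorem Cfg.Inv2.map {L : Type*} {A : Matrix V V K} (f : K → L) (hA : 𝒞.Inv2 A) :
    𝒞.Inv2 (A.map f) := fun a b a' b' h => by
  rw [Matrix.map_apply, Matrix.map_apply, hA a b a' b' h]

theorem Cfg.Inv2.sum [AddCommMonoid K] {α : Type*} (s : Finset α) {A : α → Matrix V V K}
    (hA : ∀ i ∈ s, 𝒞.Inv2 (A i)) : 𝒞.Inv2 (∑ i ∈ s, A i) := fun a b a' b' h => by
  rw [Matrix.sum_apply, Matrix.sum_apply]
  exact Finset.sum_congr rfl fun i hi => hA i hi a b a' b' h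

theorem Cfg.Inv2.one (hm : 2 ≤ m) [Zero K] [One K] : 𝒞.Inv2 (1 : Matrix V V K) :=
  fun a b a' b' h => by
  rw [Matrix.one_apply, Matrix.one_apply]
  exact if_congr (𝒞.eq_of_c2 hm h) rfl rfl

theorem Cfg.Inv2.transpose (hm : 2 ≤ m) {A : Matrix V V K} (hA : 𝒞.Inv2 A) :
    𝒞.Inv2 A.transpose := fun a b a' b' h => hA _ _ _ _ (𝒞.c2_swap hm h)

theorem Cfg.Inv2.mul (hm : 3 ≤ m) [NonUnitalNonAssocSemiring K] {A B : Matrix V V K}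
    (hA : 𝒞.Inv2 A) (hB : 𝒞.Inv2 B) : 𝒞.Inv2 (A * B) := fun a b a' b' h => by
  obtain ⟨e, he⟩ := 𝒞.ext2 hm h
  rw [Matrix.mul_apply, Matrix.mul_apply, ← Equiv.sum_comp e (fun z => A a' z * B z b')]
  refine Finset.sum_congr rfl fun z _ => ?_
  obtain ⟨h1, h2, h3⟩ := 𝒞.c3_sub hm (he z)
  rw [hA _ _ _ _ h2, hB _ _ _ _ (𝒞.c2_swap (by omega) h3)]

theorem Cfg.Inv2.pow (hm : 3 ≤ m) [Semiring K] {A : Matrix V V K}
    (hA : 𝒞.Inv2 A) (k : ℕ) : 𝒞.Inv2 (A ^ k) := by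
  induction k with
  | zero => rw [pow_zero]; exact Cfg.Inv2.one (by omega)
  | succ k ih => rw [pow_succ]; exact ih.mul hm hA

/-- the indicator matrix of the colour `i` -/
def Cfg.ind (𝒞 : Cfg V ι m) (K : Type*) [Zero K] [One K] (i : ι) : Matrix V V K :=
  fun a b => if 𝒞.c2 a b = i then 1 else 0

/-- the diagonal indicator matrix of the class `ρ` -/
def Cfg.dg (𝒞 : Cfg V ι m) (K : Type*) [Zero K] [One K] (ρ : ι) : Matrix V V K :=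
  Matrix.diagonal fun a => if 𝒞.c1 a = ρ then 1 else 0

theorem Cfg.ind_apply (𝒞 : Cfg V ι m) [Zero K] [One K] (i : ι) (a b : V) :
    𝒞.ind K i a b = if 𝒞.c2 a b = i then 1 else 0 := rfl

theorem Cfg.inv2_ind (𝒞 : Cfg V ι m) [Zero K] [One K] (i : ι) : 𝒞.Inv2 (𝒞.ind K i) :=
  fun a b a' b' h => by rw [𝒞.ind_apply, 𝒞.ind_apply, h]

theorem Cfg.inv2_dg (𝒞 : Cfg V ι m) (hm : 2 ≤ m) [Zero K] [One K] (ρ : ι) :
    𝒞.Inv2 (𝒞.dg K ρ) := fun a b a' b' h => by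
  rw [Cfg.dg, Matrix.diagonal_apply, Matrix.diagonal_apply]
  rw [(𝒞.c1_of_c2 hm h).1]
  exact if_congr (𝒞.eq_of_c2 hm h) rfl rfl

theorem Cfg.dg_mul_apply (𝒞 : Cfg V ι m) [Semiring K] (ρ : ι) (A : Matrix V V K) (a b : V) :
    (𝒞.dg K ρ * A) a b = if 𝒞.c1 a = ρ then A a b else 0 := by
  rw [Cfg.dg, Matrix.diagonal_mul]; split_ifs <;> simp

theorem Cfg.mul_dg_apply (𝒞 : Cfg V ι m) [Semiring K] (ρ : ι) (A : Matrix V V K) (a b : V) :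
    (A * 𝒞.dg K ρ) a b = if 𝒞.c1 b = ρ then A a b else 0 := by
  rw [Cfg.dg, Matrix.mul_diagonal]; split_ifs <;> simp

theorem Cfg.dg_mul_dg (𝒞 : Cfg V ι m) [Semiring K] (ρ : ι) : 𝒞.dg K ρ * 𝒞.dg K ρ = 𝒞.dg K ρ := by
  ext a b
  rw [𝒞.dg_mul_apply]
  by_cases h : 𝒞.c1 a = ρ
  · rw [if_pos h]
  · rw [if_neg h, Cfg.dg, Matrix.diagonal_apply, if_neg h, ite_self]

theorem Cfg.dg_transpose (𝒞 : Cfg V ι m) [Semiring K] (ρ : ι) :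
    (𝒞.dg K ρ).transpose = 𝒞.dg K ρ := by
  rw [Cfg.dg, Matrix.diagonal_transpose]

/-- trace form -/
theorem Cfg.trace_mul_ind (𝒞 : Cfg V ι m) [CommSemiring K] {A : Matrix V V K} (hA : 𝒞.Inv2 A)
    (a b : V) : (A * (𝒞.ind K (𝒞.c2 a b)).transpose).trace =
      ((univ.filter fun ab : V × V => 𝒞.c2 ab.1 ab.2 = 𝒞.c2 a b).card : K) * A a b := by
  rw [Matrix.trace]
  simp only [Matrix.diag_apply, Matrix.mul_apply, Matrix.transpose_apply, 𝒞.ind_apply]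
  rw [← Finset.sum_product', Finset.univ_product_univ, Finset.card_filter, Nat.cast_sum,
    Finset.sum_mul]
  refine Finset.sum_congr rfl fun x _ => ?_
  by_cases h : 𝒞.c2 x.1 x.2 = 𝒞.c2 a b
  · simp [h, hA _ _ _ _ h]
  · simp [h]

end inv2

/-! ### Sizes -/

theorem Cfg.mem_cls (𝒞 : Cfg V ι m) (ρ : ι) (a : V) : a ∈ 𝒞.cls ρ ↔ 𝒞.c1 a = ρ := by
  simp [Cfg.cls]

theorem Cfg.mem_rels (𝒞 : Cfg V ι m) (ρ σ i : ι) :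
    i ∈ 𝒞.rels ρ σ ↔ ∃ a b, 𝒞.c1 a = ρ ∧ 𝒞.c1 b = σ ∧ 𝒞.c2 a b = i := by
  simp only [Cfg.rels, mem_image, mem_product, 𝒞.mem_cls, Prod.exists]
  constructor
  · rintro ⟨a, b, ⟨h1, h2⟩, h3⟩; exact ⟨a, b, h1, h2, h3⟩
  · rintro ⟨a, b, h1, h2, h3⟩; exact ⟨a, b, ⟨h1, h2⟩, h3⟩

/-- the valency of the colour `R` at the point `v` -/
def Cfg.val (𝒞 : Cfg V ι m) (v : V) (R : ι) : ℕ := (univ.filter fun z => 𝒞.c2 v z = R).card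

theorem Cfg.val_eq (𝒞 : Cfg V ι m) (hm : 2 ≤ m) {v w : V} (h : 𝒞.c1 v = 𝒞.c1 w) (R : ι) :
    𝒞.val v R = 𝒞.val w R := 𝒞.ext 1 (by omega) _ _ h R

theorem Cfg.val_eq_fix (𝒞 : Cfg V ι (m + 1)) (hm : 1 ≤ m) (v : V) (R : ι) :
    𝒞.val v R = ((𝒞.fix v).cls R).card := by
  simp only [Cfg.val, Cfg.cls, 𝒞.fix_c1 hm]

theorem Cfg.val_pos (𝒞 : Cfg V ι m) (v z : V) : 0 < 𝒞.val v (𝒞.c2 v z) :=
  Finset.card_pos.mpr ⟨z, by simp⟩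

/-- the number of pairs with a given colour -/
theorem Cfg.card_pairs (𝒞 : Cfg V ι m) (hm : 2 ≤ m) (v z : V) :
    (univ.filter fun ab : V × V => 𝒞.c2 ab.1 ab.2 = 𝒞.c2 v z).card =
      (𝒞.cls (𝒞.c1 v)).card * 𝒞.val v (𝒞.c2 v z) := by
  rw [Finset.card_filter, ← Finset.univ_product_univ, Finset.sum_product]
  simp only [← Finset.card_filter]
  rw [Cfg.cls, Finset.card_filter, Finset.sum_mul]
  refine Finset.sum_congr rfl fun a _ => ?_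
  by_cases h : 𝒞.c1 a = 𝒞.c1 v
  · simp only [h, if_true, one_mul]
    exact 𝒞.val_eq hm h _
  · simp only [h, if_false, zero_mul, Finset.card_eq_zero]
    refine Finset.filter_eq_empty_iff.mpr fun b _ hb => h (𝒞.c1_of_c2 hm hb).1

/-- a colour and its transposed colour have the same number of pairs -/
theorem Cfg.card_pairs_swap (𝒞 : Cfg V ι m) (hm : 2 ≤ m) (v z : V) :
    (univ.filter fun ab : V × V => 𝒞.c2 ab.1 ab.2 = 𝒞.c2 v z).card =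
      (univ.filter fun ab : V × V => 𝒞.c2 ab.1 ab.2 = 𝒞.c2 z v).card := by
  refine Finset.card_bij' (fun ab _ => ab.swap) (fun ab _ => ab.swap) ?_ ?_ ?_ ?_
  · intro ab h
    simp only [mem_filter, mem_univ, true_and, Prod.fst_swap, Prod.snd_swap] at h ⊢
    exact 𝒞.c2_swap hm h
  · intro ab h
    simp only [mem_filter, mem_univ, true_and, Prod.fst_swap, Prod.snd_swap] at h ⊢
    exact 𝒞.c2_swap hm h
  · intro ab _; simp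
  · intro ab _; simp

theorem Cfg.val_swap (𝒞 : Cfg V ι m) (hm : 2 ≤ m) (v z : V) :
    (𝒞.cls (𝒞.c1 v)).card * 𝒞.val v (𝒞.c2 v z) = (𝒞.cls (𝒞.c1 z)).card * 𝒞.val z (𝒞.c2 z v) := by
  rw [← 𝒞.card_pairs hm, ← 𝒞.card_pairs hm, 𝒞.card_pairs_swap hm]

theorem Cfg.cls_pos (𝒞 : Cfg V ι m) (v : V) : 0 < (𝒞.cls (𝒞.c1 v)).card :=
  Finset.card_pos.mpr ⟨v, by simp [𝒞.mem_cls]⟩

/-- the valencies of `R` and of the transposed colour are equal inside a class -/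
theorem Cfg.val_flip (𝒞 : Cfg V ι m) (hm : 2 ≤ m) {v z : V} (h : 𝒞.c1 v = 𝒞.c1 z) :
    𝒞.val v (𝒞.c2 z v) = 𝒞.val v (𝒞.c2 v z) := by
  have h1 := 𝒞.val_swap hm v z
  rw [h] at h1
  have h2 := Nat.eq_of_mul_eq_mul_left (𝒞.cls_pos z) h1
  rw [h2]
  exact 𝒞.val_eq hm h _

/-- the sum of the valencies -/
theorem Cfg.sum_val (𝒞 : Cfg V ι m) (hm : 2 ≤ m) (v : V) (σ : ι) :
    ∑ R ∈ 𝒞.rels (𝒞.c1 v) σ, 𝒞.val v R = (𝒞.cls σ).card := by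
  rw [Finset.card_eq_sum_card_fiberwise (f := fun z => 𝒞.c2 v z) (t := 𝒞.rels (𝒞.c1 v) σ)]
  · refine Finset.sum_congr rfl fun R hR => ?_
    rw [Cfg.val]
    congr 1
    ext z
    simp only [mem_filter, mem_univ, true_and, 𝒞.mem_cls]
    constructor
    · intro h
      refine ⟨?_, h⟩
      obtain ⟨a, b, h1, h2, h3⟩ := (𝒞.mem_rels _ _ _).1 hR
      rw [← h2]
      exact (𝒞.c1_of_c2 hm (h.trans h3.symm)).2
    · exact fun h => h.2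
  · intro z hz
    rw [Finset.mem_coe, 𝒞.mem_cls] at hz
    rw [Finset.mem_coe, 𝒞.mem_rels]
    exact ⟨v, z, rfl, hz, rfl⟩

/-- every relation of `v`'s class occurs at `v` -/
theorem Cfg.exists_of_mem_rels (𝒞 : Cfg V ι m) (hm : 2 ≤ m) (v : V) {σ R : ι}
    (h : R ∈ 𝒞.rels (𝒞.c1 v) σ) : ∃ z, 𝒞.c1 z = σ ∧ 𝒞.c2 v z = R := by
  obtain ⟨a, b, h1, h2, h3⟩ := (𝒞.mem_rels _ _ _).1 h
  obtain ⟨e, he⟩ := 𝒞.ext1 hm h1
  refine ⟨e b, ?_, ?_⟩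
  · rw [← h2]; exact ((𝒞.c1_of_c2 hm (he b)).2).symm
  · rw [← h3]; exact (he b).symm

/-- the transposed colour -/
noncomputable def Cfg.flip (𝒞 : Cfg V ι m) (i : ι) : ι :=
  open Classical in if h : ∃ ab : V × V, 𝒞.c2 ab.1 ab.2 = i then 𝒞.c2 h.choose.2 h.choose.1 else i

theorem Cfg.flip_c2 (𝒞 : Cfg V ι m) (hm : 2 ≤ m) (a b : V) : 𝒞.flip (𝒞.c2 a b) = 𝒞.c2 b a := by
  have h : ∃ ab : V × V, 𝒞.c2 ab.1 ab.2 = 𝒞.c2 a b := ⟨(a, b), rfl⟩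
  rw [Cfg.flip, dif_pos h]
  exact 𝒞.c2_swap hm h.choose_spec

theorem Cfg.flip_flip (𝒞 : Cfg V ι m) (hm : 2 ≤ m) {ρ σ R : ι} (h : R ∈ 𝒞.rels ρ σ) :
    𝒞.flip (𝒞.flip R) = R := by
  obtain ⟨a, b, h1, h2, rfl⟩ := (𝒞.mem_rels _ _ _).1 h
  rw [𝒞.flip_c2 hm, 𝒞.flip_c2 hm]

theorem Cfg.flip_mem (𝒞 : Cfg V ι m) (hm : 2 ≤ m) {ρ σ R : ι} (h : R ∈ 𝒞.rels ρ σ) :
    𝒞.flip R ∈ 𝒞.rels σ ρ := by
  obtain ⟨a, b, h1, h2, rfl⟩ := (𝒞.mem_rels _ _ _).1 h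
  rw [𝒞.flip_c2 hm]
  exact (𝒞.mem_rels _ _ _).2 ⟨b, a, h2, h1, rfl⟩

theorem Cfg.diag_mem (𝒞 : Cfg V ι m) (v : V) : 𝒞.c2 v v ∈ 𝒞.rels (𝒞.c1 v) (𝒞.c1 v) :=
  (𝒞.mem_rels _ _ _).2 ⟨v, v, rfl, rfl, rfl⟩

theorem Cfg.flip_ne (𝒞 : Cfg V ι m) (hm : 2 ≤ m) (v : V) {R : ι}
    (h : R ∈ 𝒞.rels (𝒞.c1 v) (𝒞.c1 v)) (h1 : R ≠ 𝒞.c2 v v) : 𝒞.flip R ≠ R := by
  obtain ⟨z, h2, rfl⟩ := 𝒞.exists_of_mem_rels hm v h
  rw [𝒞.flip_c2 hm]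
  refine 𝒞.c2_ne_swap hm ?_
  rintro rfl
  exact h1 rfl

theorem Cfg.flip_ne_diag (𝒞 : Cfg V ι m) (hm : 2 ≤ m) (v : V) {R : ι}
    (h : R ∈ 𝒞.rels (𝒞.c1 v) (𝒞.c1 v)) (h1 : R ≠ 𝒞.c2 v v) : 𝒞.flip R ≠ 𝒞.c2 v v := by
  intro h2
  apply h1
  rw [← 𝒞.flip_flip hm h, h2, 𝒞.flip_c2 hm]

theorem Cfg.val_flip' (𝒞 : Cfg V ι m) (hm : 2 ≤ m) (v : V) {R : ι}
    (h : R ∈ 𝒞.rels (𝒞.c1 v) (𝒞.c1 v)) : 𝒞.val v (𝒞.flip R) = 𝒞.val v R := by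
  obtain ⟨z, h2, rfl⟩ := 𝒞.exists_of_mem_rels hm v h
  rw [𝒞.flip_c2 hm]
  exact 𝒞.val_flip hm h2.symm

theorem Cfg.val_diag (𝒞 : Cfg V ι m) (hm : 2 ≤ m) (v : V) : 𝒞.val v (𝒞.c2 v v) = 1 := by
  rw [Cfg.val, Finset.card_eq_one]
  refine ⟨v, ?_⟩
  ext z
  simp only [mem_filter, mem_univ, true_and, mem_singleton]
  constructor
  · intro h; exact ((𝒞.eq_of_c2 hm h).2 rfl).symm
  · rintro rfl; rfl

/-- sums over the nontrivial relations of a flip-invariant function are even -/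
theorem Cfg.even_sum (𝒞 : Cfg V ι m) (hm : 2 ≤ m) (v : V) (f : ι → ℕ)
    (hf : ∀ R ∈ 𝒞.rels (𝒞.c1 v) (𝒞.c1 v), f (𝒞.flip R) = f R) :
    Even (∑ R ∈ (𝒞.rels (𝒞.c1 v) (𝒞.c1 v)).erase (𝒞.c2 v v), f R) := by
  rw [← ZMod.natCast_eq_zero_iff_even, Nat.cast_sum]
  refine Finset.sum_involution (fun R _ => 𝒞.flip R) ?_ ?_ ?_ ?_
  · intro R hR
    rw [Finset.mem_erase] at hR
    rw [hf R hR.2]
    exact CharTwo.add_self_eq_zero _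
  · intro R hR _
    rw [Finset.mem_erase] at hR
    exact 𝒞.flip_ne hm v hR.2 hR.1
  · intro R hR
    rw [Finset.mem_erase] at hR ⊢
    exact ⟨𝒞.flip_ne_diag hm v hR.2 hR.1, 𝒞.flip_mem hm hR.2⟩
  · intro R hR
    rw [Finset.mem_erase] at hR
    exact 𝒞.flip_flip hm hR.2

/-- classes have odd size -/
theorem Cfg.cls_odd (𝒞 : Cfg V ι m) (hm : 2 ≤ m) (v : V) : Odd (𝒞.cls (𝒞.c1 v)).card := by
  rw [← 𝒞.sum_val hm v, ← Finset.add_sum_erase _ _ (𝒞.diag_mem v), 𝒞.val_diag hm]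
  obtain ⟨k, hk⟩ := 𝒞.even_sum hm v (𝒞.val v) (fun R hR => 𝒞.val_flip' hm v hR)
  exact ⟨k, by rw [hk]; ring⟩

/-- the rank of a class is odd -/
theorem Cfg.rank_odd (𝒞 : Cfg V ι m) (hm : 2 ≤ m) (v : V) :
    Odd (𝒞.rels (𝒞.c1 v) (𝒞.c1 v)).card := by
  obtain ⟨k, hk⟩ := 𝒞.even_sum hm v (fun _ => 1) (fun R hR => rfl)
  rw [Finset.sum_const, smul_eq_mul, mul_one] at hk
  refine ⟨k, ?_⟩
  have := Finset.card_erase_add_one (𝒞.diag_mem v)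
  omega

theorem Cfg.rank_ge_three (𝒞 : Cfg V ι m) (hm : 2 ≤ m) (v : V)
    (h : 2 ≤ (𝒞.cls (𝒞.c1 v)).card) : 3 ≤ (𝒞.rels (𝒞.c1 v) (𝒞.c1 v)).card := by
  have h1 : 2 ≤ (𝒞.rels (𝒞.c1 v) (𝒞.c1 v)).card := by
    by_contra h2
    have h3 : (𝒞.rels (𝒞.c1 v) (𝒞.c1 v)).card = 1 := by
      have := Finset.card_pos.mpr ⟨_, 𝒞.diag_mem v⟩
      omega
    obtain ⟨z, hz⟩ := Finset.card_eq_one.1 h3
    have h4 := 𝒞.sum_val hm v (𝒞.c1 v)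
    have h5 := 𝒞.diag_mem v
    rw [hz, Finset.mem_singleton] at h5
    rw [hz, Finset.sum_singleton, ← h5, 𝒞.val_diag hm] at h4
    omega
  obtain ⟨k, hk⟩ := 𝒞.rank_odd hm v
  omega

/-- valencies are odd -/
theorem Cfg.val_odd (𝒞 : Cfg V ι (m + 1)) (hm : 2 ≤ m) (v z : V) : Odd (𝒞.val v (𝒞.c2 v z)) := by
  rw [𝒞.val_eq_fix (by omega), ← 𝒞.fix_c1 (by omega)]
  exact (𝒞.fix v).cls_odd hm z

/-- the numbers of pairs with a given colour are odd -/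
theorem Cfg.pairs_odd (𝒞 : Cfg V ι (m + 1)) (hm : 2 ≤ m) (v z : V) :
    Odd (univ.filter fun ab : V × V => 𝒞.c2 ab.1 ab.2 = 𝒞.c2 v z).card := by
  rw [𝒞.card_pairs (by omega)]
  exact (𝒞.cls_odd (by omega) v).mul (𝒞.val_odd hm v z)

/-! ### The central idempotent `τ` -/

section tau

variable {K : Type*} [Field K]

/-- `τ = ∑_Y (1 / |Y|) 1_Y 1_Yᵀ` -/
noncomputable def Cfg.tau (𝒞 : Cfg V ι m) (K : Type*) [Field K] : Matrix V V K :=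
  fun a b => if 𝒞.c1 a = 𝒞.c1 b then ((𝒞.cls (𝒞.c1 b)).card : K)⁻¹ else 0

theorem Cfg.inv2_tau (𝒞 : Cfg V ι m) (hm : 2 ≤ m) : 𝒞.Inv2 (𝒞.tau K) := fun a b a' b' h => by
  simp only [Cfg.tau]
  rw [(𝒞.c1_of_c2 hm h).1, (𝒞.c1_of_c2 hm h).2]

theorem Cfg.tau_transpose (𝒞 : Cfg V ι m) : (𝒞.tau K).transpose = 𝒞.tau K := by
  ext a b
  simp only [Matrix.transpose_apply, Cfg.tau]
  by_cases h : 𝒞.c1 a = 𝒞.c1 b
  · rw [if_pos h, if_pos h.symm, h]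
  · rw [if_neg h, if_neg (fun h' => h h'.symm)]

theorem Cfg.mul_tau_apply (𝒞 : Cfg V ι m) (A : Matrix V V K) (a b : V) :
    (A * 𝒞.tau K) a b = (∑ c ∈ 𝒞.cls (𝒞.c1 b), A a c) * ((𝒞.cls (𝒞.c1 b)).card : K)⁻¹ := by
  rw [Matrix.mul_apply, Finset.sum_mul, Cfg.cls, Finset.sum_filter]
  refine Finset.sum_congr rfl fun c _ => ?_
  simp only [Cfg.tau]
  by_cases h : 𝒞.c1 c = 𝒞.c1 b
  · rw [if_pos h, if_pos h]; rfl
  · rw [if_neg h, if_neg h, mul_zero]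

theorem Cfg.tau_mul_apply (𝒞 : Cfg V ι m) (A : Matrix V V K) (a b : V) :
    (𝒞.tau K * A) a b = ((𝒞.cls (𝒞.c1 a)).card : K)⁻¹ * (∑ c ∈ 𝒞.cls (𝒞.c1 a), A c b) := by
  rw [Matrix.mul_apply, Finset.mul_sum, Cfg.cls, Finset.sum_filter]
  refine Finset.sum_congr rfl fun c _ => ?_
  simp only [Cfg.tau]
  by_cases h : 𝒞.c1 c = 𝒞.c1 a
  · rw [if_pos h, if_pos h.symm, h]; rfl
  · rw [if_neg h, if_neg (fun h' => h h'.symm), zero_mul]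

/-- the class sizes are not zero in `K` -/
def Cfg.Good (𝒞 : Cfg V ι m) (K : Type*) [Field K] : Prop :=
  ∀ a, ((𝒞.cls (𝒞.c1 a)).card : K) ≠ 0

theorem Cfg.good_of_charZero (𝒞 : Cfg V ι m) (K : Type*) [Field K] [CharZero K] : 𝒞.Good K :=
  fun a => Nat.cast_ne_zero.mpr (𝒞.cls_pos a).ne'

theorem Cfg.cls_card_char_two (𝒞 : Cfg V ι m) (hm : 2 ≤ m) (K : Type*) [Field K] [CharP K 2]
    (a : V) : ((𝒞.cls (𝒞.c1 a)).card : K) = 1 := by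
  obtain ⟨k, hk⟩ := 𝒞.cls_odd hm a
  rw [hk]
  push_cast
  have : (2 : K) = 0 := CharTwo.two_eq_zero
  rw [this, zero_mul, zero_add]

theorem Cfg.good_of_char_two (𝒞 : Cfg V ι m) (hm : 2 ≤ m) (K : Type*) [Field K] [CharP K 2] :
    𝒞.Good K := fun a => by rw [𝒞.cls_card_char_two hm]; exact one_ne_zero

/-- in characteristic two -/
theorem Cfg.tau_char_two (𝒞 : Cfg V ι m) (hm : 2 ≤ m) (K : Type*) [Field K] [CharP K 2] (a b : V) :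
    𝒞.tau K a b = if 𝒞.c1 a = 𝒞.c1 b then 1 else 0 := by
  simp only [Cfg.tau]
  rw [𝒞.cls_card_char_two hm, inv_one]

theorem Cfg.tau_mul_tau (𝒞 : Cfg V ι m) (hg : 𝒞.Good K) : 𝒞.tau K * 𝒞.tau K = 𝒞.tau K := by
  ext a b
  rw [𝒞.mul_tau_apply]
  have h1 : ∑ c ∈ 𝒞.cls (𝒞.c1 b), 𝒞.tau K a c = if 𝒞.c1 a = 𝒞.c1 b then 1 else 0 := by
    have h2 : ∀ c ∈ 𝒞.cls (𝒞.c1 b), 𝒞.tau K a c =
        if 𝒞.c1 a = 𝒞.c1 b then ((𝒞.cls (𝒞.c1 b)).card : K)⁻¹ else 0 := by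
      intro c hc
      rw [𝒞.mem_cls] at hc
      simp only [Cfg.tau, hc]
    rw [Finset.sum_congr rfl h2, Finset.sum_const, nsmul_eq_mul]
    split_ifs
    · exact mul_inv_cancel₀ (hg b)
    · rw [mul_zero]
  rw [h1]
  simp only [Cfg.tau]
  split_ifs <;> simp

/-- the sums of the rows of an invariant matrix over a class depend only on the class -/
theorem Cfg.Inv2.rowsum (hm : 2 ≤ m) {K : Type*} [AddCommMonoid K] {A : Matrix V V K}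
    (hA : 𝒞.Inv2 A) {a a' : V} (h : 𝒞.c1 a = 𝒞.c1 a') (σ : ι) :
    ∑ c ∈ 𝒞.cls σ, A a c = ∑ c ∈ 𝒞.cls σ, A a' c := by
  obtain ⟨e, he⟩ := 𝒞.ext1 hm h
  simp only [Cfg.cls, Finset.sum_filter]
  rw [← Equiv.sum_comp e (fun z => if 𝒞.c1 z = σ then A a' z else 0)]
  refine Finset.sum_congr rfl fun z _ => ?_
  rw [(𝒞.c1_of_c2 hm (he z)).2, hA _ _ _ _ (he z)]

theorem Cfg.Inv2.colsum (hm : 2 ≤ m) {K : Type*} [AddCommMonoid K] {A : Matrix V V K}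
    (hA : 𝒞.Inv2 A) {a a' : V} (h : 𝒞.c1 a = 𝒞.c1 a') (σ : ι) :
    ∑ c ∈ 𝒞.cls σ, A c a = ∑ c ∈ 𝒞.cls σ, A c a' :=
  (hA.transpose hm).rowsum hm h σ

theorem Cfg.Inv2.tau_comm (hm : 2 ≤ m) (hg : 𝒞.Good K) {A : Matrix V V K} (hA : 𝒞.Inv2 A) :
    A * 𝒞.tau K = 𝒞.tau K * A := by
  ext a b
  rw [𝒞.mul_tau_apply, 𝒞.tau_mul_apply]
  have h1 : ((𝒞.cls (𝒞.c1 a)).card : K) * ∑ c ∈ 𝒞.cls (𝒞.c1 b), A a c =
      ((𝒞.cls (𝒞.c1 b)).card : K) * ∑ c ∈ 𝒞.cls (𝒞.c1 a), A c b := by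
    have h2 : ∑ x ∈ 𝒞.cls (𝒞.c1 a), ∑ c ∈ 𝒞.cls (𝒞.c1 b), A x c =
        ((𝒞.cls (𝒞.c1 a)).card : K) * ∑ c ∈ 𝒞.cls (𝒞.c1 b), A a c := by
      rw [← nsmul_eq_mul, ← Finset.sum_const]
      refine Finset.sum_congr rfl fun x hx => ?_
      rw [𝒞.mem_cls] at hx
      exact hA.rowsum hm hx _
    have h3 : ∑ c ∈ 𝒞.cls (𝒞.c1 b), ∑ x ∈ 𝒞.cls (𝒞.c1 a), A x c =
        ((𝒞.cls (𝒞.c1 b)).card : K) * ∑ c ∈ 𝒞.cls (𝒞.c1 a), A c b := by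
      rw [← nsmul_eq_mul, ← Finset.sum_const]
      refine Finset.sum_congr rfl fun x hx => ?_
      rw [𝒞.mem_cls] at hx
      exact hA.colsum hm hx _
    rw [← h2, ← h3, Finset.sum_comm]
  have ha := hg a
  have hb := hg b
  field_simp
  linear_combination h1

theorem Cfg.non_iff (𝒞 : Cfg V ι m) (hg : 𝒞.Good K) (A : Matrix V V K) :
    𝒞.Non A ↔ A * 𝒞.tau K = 0 := by
  constructor
  · intro h
    ext a b
    rw [𝒞.mul_tau_apply, h, zero_mul, Matrix.zero_apply]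
  · intro h a ρ
    by_cases h1 : ∃ b, 𝒞.c1 b = ρ
    · obtain ⟨b, rfl⟩ := h1
      have h2 := congrFun (congrFun h a) b
      rw [𝒞.mul_tau_apply, Matrix.zero_apply, mul_eq_zero] at h2
      exact h2.resolve_right (inv_ne_zero (hg b))
    · rw [Finset.sum_eq_zero]
      intro b hb
      rw [𝒞.mem_cls] at hb
      exact absurd ⟨b, hb⟩ h1

theorem Cfg.Inv2.non_iff' (hm : 2 ≤ m) (hg : 𝒞.Good K) {A : Matrix V V K} (hA : 𝒞.Inv2 A) :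
    𝒞.Non A ↔ 𝒞.tau K * A = 0 := by
  rw [𝒞.non_iff hg, hA.tau_comm hm hg]

end tau

end Vale.Agent.P319.SC
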