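import Vale.Agent.P319.TF.H201.FptK
import Vale.Agent.P319.SC.AIface

/-! P319, block SC: the FPT clause with the bound `s ^ (log s / log log s)`. -/

set_option linter.all false

namespace Vale.Agent.P319.SC

open Polynomial Vale.Agent.P319.U Vale.Agent.P319.TF

/-- the FPT clause with the new bound: `C` depends only on the exponent `K` of the budget for the
small primes `l` -/
def FptKSC (A : Data → Data) : Prop :=
  ∀ K : ℕ, ∃ C : ℕ, ∀ R : ℕ, ∃ D : ℕ, ∀ p : ℕ, p.Prime → ∀ f : (ZMod p)[X], f ≠ 0 →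
    ∀ s : ℕ, 1 ≤ s → FewFacN s f →
      (∀ r : ℕ, r.Prime → R < r → r ≤ s → GoodR p r ((s ^ scE s * Nat.size p) ^ K)) →
      ∀ w : Data, D * (s ^ scE s * Nat.size p) ^ C ≤ w.dataSize →
        IsFactorization f (A (Data.pair (input f) w))

theorem fptKSC_of_machine {nr : ℕ → ℕ → ℕ → List (List ℕ)} (hnr : NrF nr) {C₀ : ℕ}
    {A : Data → Data}
    (hA2 : ∀ (p : ℕ) (_ : p.Prime) (f : (ZMod p)[X]) (_ : f ≠ 0) (s : ℕ), 1 ≤ s → FewFacN s f →
        ∀ w : Data, s ^ (C₀ * scE s) ≤ w.dataSize →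
          (∀ N : ℕ, w.dataSize ≤ N → N < p → ∀ r : ℕ, r.Prime → r ≤ s → nr p N r ≠ []) →
          IsFactorization f (A (Data.pair (input f) w))) : FptKSC A := by
  obtain ⟨C, hC2, hC⟩ := hnr
  intro E
  refine ⟨(E + 1) * (C + C₀), fun R => ?_⟩
  obtain ⟨K, hK1, hK⟩ := hC R
  refine ⟨K, ?_⟩
  intro p hp f hf s hs hS hgood w hw
  have hsz : 2 ≤ Nat.size p := by
    have := Nat.size_le_size hp.two_le
    rwa [show Nat.size 2 = 2 from rfl] at this
  set N₁ := s ^ scE s * Nat.size p with hN1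
  have hE1 : 1 ≤ scE s := by unfold scE; omega
  have hs1 : 1 ≤ s ^ scE s := Nat.pow_pos (by omega)
  have hb2 : 2 ≤ N₁ := by nlinarith
  have hszN : Nat.size p ≤ N₁ := Nat.le_mul_of_pos_left _ hs1
  set N₀ := N₁ ^ (E + 1) with hN0
  have h10 : N₁ ≤ N₀ := by
    calc N₁ = N₁ ^ 1 := (pow_one _).symm
      _ ≤ N₁ ^ (E + 1) := Nat.pow_le_pow_right (by omega) (by omega)
  have hw' : K * N₀ ^ (C + C₀) ≤ w.dataSize := by
    rw [hN0, ← pow_mul]
    exact hw
  have hw'' : K * N₀ ^ C ≤ w.dataSize :=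
    (Nat.mul_le_mul_left _ (Nat.pow_le_pow_right (by omega) (by omega))).trans hw'
  refine hA2 p hp f hf s hs hS w ?_ ?_
  · refine le_trans ?_ hw'
    refine le_trans ?_ (Nat.le_mul_of_pos_left _ hK1)
    calc s ^ (C₀ * scE s) = (s ^ scE s) ^ C₀ := by rw [← pow_mul, mul_comm]
      _ ≤ N₁ ^ C₀ := Nat.pow_le_pow_left (Nat.le_mul_of_pos_right _ (by omega)) C₀
      _ ≤ N₀ ^ C₀ := Nat.pow_le_pow_left h10 C₀
      _ ≤ N₀ ^ (C + C₀) := Nat.pow_le_pow_right (by omega) (by omega)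
  · intro N hN hNp r hr hrs
    refine hK p hp N₀ (hb2.trans h10) (hszN.trans h10) N (hw''.trans hN) hNp r hr ?_
    intro hRr
    refine ⟨GoodR.mono (hgood r hr hRr hrs) (Nat.pow_le_pow_right (by omega) (by omega)), ?_⟩
    refine le_trans (Nat.mul_le_mul_right _ (hrs.trans ?_)) h10
    calc s = s ^ 1 := (pow_one s).symm
      _ ≤ s ^ scE s := Nat.pow_le_pow_right (by omega) hE1

/-- from the machine for the supplier `nrAll` -/
theorem fptKSC_of {C₀ : ℕ} (h : MachStmt C₀ nrAll) : ∃ A : Data → Data, PolyTime A ∧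
    (∀ (p : ℕ) (_ : p.Prime) (f : (ZMod p)[X]) (_ : f ≠ 0) (w : Data),
      A (Data.pair (input f) w) = Data.num 0 ∨ IsFactorization f (A (Data.pair (input f) w))) ∧
    FptKSC A := by
  obtain ⟨A, hA, hA1, hA2⟩ := h
  exact ⟨A, hA, hA1, fptKSC_of_machine (nrAll_neF ntf (H827.ntm2 H244.ntu2)) hA2⟩

end Vale.Agent.P319.SC
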