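import Mathlib
import Vale.Agent.P319.SC.AIface
import Vale.Agent.P319.FR.PFTests

/-! P319, block SC, package ALG-PF: the tests are computable in polynomial time. -/

set_option linter.all false

namespace Vale.Agent.P319

open Polynomial

/-! ### Index lists -/

theorem scpf_U_lt {m i j : ℕ} (hj : j < m) : ∀ l < m, (scU m i j).getD l 0 < m := by
  intro l hl
  unfold scU
  rw [List.getD_eq_getElem _ _ (by simpa using hl)]
  simp only [List.getElem_map, List.getElem_range]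
  split_ifs <;> omega

theorem scpf_W_lt {m k : ℕ} (hk : k + 1 < m) : ∀ l < m, (scW m k).getD l 0 < m := by
  intro l hl
  unfold scW
  rw [List.getD_eq_getElem _ _ (by simpa using hl)]
  simp only [List.getElem_map, List.getElem_range]
  split_ifs <;> omega

theorem scpf_F_lt {m k : ℕ} (hk : k < m) : ∀ l < m, (evF m k).getD l 0 < m := by
  intro l hl
  unfold evF
  rw [List.getD_eq_getElem _ _ (by simpa using hl)]
  simp only [List.getElem_map, List.getElem_range]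
  omega

section
variable {γ : Type} [Enc γ] {V : γ → Prop}

theorem scPF_U {m i j : γ → ℕ} (hm : PF V m) (hmB : PolyB V m) (hi : PF V i) (hj : PF V j) :
    PF V (fun c => scU (m c) (i c) (j c)) := by
  unfold scU
  refine PF.map (W := fun x => V x.1) (f := fun c l => if l = i c then j c else l)
    ?_ (PF.range hm hmB) (fun c hc _ _ => hc)
  exact PF.ite (PF.decide_eq (PF.snd PF.id) (PF.comp_fst hi (fun _ h => h)))
    ((PF.comp_fst hj (fun _ h => h)).mono (fun _ h => h.1)) (PF.snd PF.id)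

theorem scPF_W {m k : γ → ℕ} (hm : PF V m) (hmB : PolyB V m) (hk : PF V k) :
    PF V (fun c => scW (m c) (k c)) := by
  unfold scW
  refine PF.map (W := fun x => V x.1)
    (f := fun c l => if l = k c then k c + 1 else if l = k c + 1 then k c else l)
    ?_ (PF.range hm hmB) (fun c hc _ _ => hc)
  have hk' : PF (fun x : γ × ℕ => V x.1) (fun x => k x.1) := PF.comp_fst hk (fun _ h => h)
  refine PF.ite (PF.decide_eq (PF.snd PF.id) hk')
    ((PF.add hk' (PF.const 1)).mono (fun _ h => h.1)) ?_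
  have hk'' := hk'.mono (V' := fun x : γ × ℕ => V x.1 ∧ ¬ x.2 = k x.1) (fun _ h => h.1)
  exact PF.ite (PF.decide_eq (PF.snd PF.id) (PF.add hk'' (PF.const 1)))
    (hk''.mono (fun _ h => h.1)) (PF.snd PF.id)

theorem scPF_F {m k : γ → ℕ} (hm : PF V m) (hmB : PolyB V m) (hk : PF V k) :
    PF V (fun c => evF (m c) (k c)) := by
  unfold evF
  refine PF.map (W := fun x => V x.1) (f := fun c i => min i (k c)) ?_
    (PF.range hm hmB) (fun c hc _ _ => hc)
  have hk' : PF (fun x : γ × ℕ => V x.1) (fun x => k x.1) := PF.comp_fst hk (fun _ h => h)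
  refine (PF.ite (c := fun x : γ × ℕ => x.2 ≤ k x.1) (f := fun x => x.2) (g := fun x => k x.1)
    (PF.decide_le (PF.snd PF.id) hk') (PF.snd PF.id) (hk'.mono (fun _ h => h.1))).congr ?_
  intro x _
  exact (min_def _ _).symm

/-- inverses modulo `P`, without a bound for the argument -/
theorem scPF_invMod {P a : γ → ℕ} (hP : PF V P) (ha : PF V a) (h1 : ∀ c, V c → 1 < P c) :
    PF V (fun c => invMod (P c) (a c)) := by
  refine PF.fastPow (mul := fun c x y => (x * y) % (P c)) (one := fun _ => 1) (x := a)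
    (e := fun c => P c - 2) (P := fun c x => x ≤ P c + a c) ?_ (PF.const 1) ha
    (PF.sub hP (PF.const 2)) (fun c hc => by have := h1 c hc; omega) (fun c hc => by omega)
    (fun c hc x y _ _ => ?_) (fun c => Nat.size (P c + a c) + 1)
    (PolyB.add (PolyB.size (PF.add hP ha)) (PolyB.const 1)) ?_
  · exact PF.mod (PF.mul (PF.fst (PF.snd PF.id)) (PF.snd (PF.snd PF.id)))
      (PF.comp hP (PF.fst PF.id) (fun _ h => h.1))
  · have := Nat.mod_lt (x * y) (show 0 < P c by have := h1 c hc; omega)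
    omega
  · intro c hc x hx
    have := Nat.size_le_size hx
    simp only [sz_nat]; omega

end

section
variable {nr : ℕ → ℕ → ℕ → List (List ℕ)} [hnr : NrOK nr]
variable {γ α : Type} [Enc γ] [Enc α] {V : γ → Prop} {P N m : γ → ℕ} {g : γ → List ℕ}

/-- iteration -/
theorem EvCtx.scIter (h : EvCtx V P N m g) {F : γ → List ℕ → List ℕ} {j : γ → ℕ} {b : γ → List ℕ}
    (hF : EvG (fun x : γ × List ℕ => V x.1 ∧ VecK (P x.1) (((g x.1).length - 1) ^ (m x.1)) x.2)
      (fun x => P x.1) (fun x => m x.1) (fun x => g x.1) (fun x => F x.1 x.2))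
    (hj : PF V j) (hjB : PolyB V j) (hb : EvG V P m g b) :
    EvG V P m g (fun c => (F c)^[j c] (b c)) := by
  have hvec : ∀ c, V c → ∀ i, VecK (P c) (((g c).length - 1) ^ (m c)) ((F c)^[i] (b c)) := by
    intro c hc i
    induction i with
    | zero => exact hb.2 c hc
    | succ i ih =>
      rw [Function.iterate_succ_apply']
      exact hF.2 (c, _) ⟨hc, ih⟩
  refine ⟨?_, fun c hc => hvec c hc _⟩
  exact PF.iterate (V := V) (N := j) (s := b) (step := F)
    (W := fun x : γ × List ℕ => V x.1 ∧ VecK (P x.1) (((g x.1).length - 1) ^ (m x.1)) x.2)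
    hF.1 hj hjB hb.1 _ (PolyB.bd h.hP h.kB) (fun c hc i _ => ⟨hc, hvec c hc i⟩)
    (fun c hc i _ => PFRonE_vec_sz (hvec c hc i))

theorem EvCtx.scMul (h : EvCtx V P N m g) {k : γ → ℕ} {A B : γ → List ℕ} (hk : PF V k)
    (hkm : ∀ c, V c → k c + 2 < m c) (hA : EvG V P m g A) (hB : EvG V P m g B) :
    EvG V P m g (fun c => Vale.Agent.P319.scMul (P c) (g c) (m c) (k c) (A c) (B c)) := by
  unfold Vale.Agent.P319.scMul
  have hk1 := PF.add hk (PF.const 1)
  have hk2 := PF.add hk (PF.const 2)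
  exact h.tr hk2 (h.mul
    (h.subst (scPF_U h.hm h.hmB hk1 hk2) hA (fun c hc => scpf_U_lt (hkm c hc)))
    (h.subst (scPF_U h.hm h.hmB hk hk2) hB (fun c hc => scpf_U_lt (hkm c hc))))

theorem EvCtx.scEq (h : EvCtx V P N m g) {k : γ → ℕ} (hk : PF V k)
    (hkm : ∀ c, V c → k c + 1 < m c) :
    EvG V P m g (fun c => Vale.Agent.P319.scEq (P c) (g c) (m c) (k c)) := by
  unfold Vale.Agent.P319.scEq
  have hp1 := PF.sub h.hP (PF.const 1)
  refine h.add h.one (h.smul (h.pow (h.add (h.x hk ?_) (h.smul (h.x (PF.add hk (PF.const 1)) ?_)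
    hp1)) hp1) hp1)
  · intro c hc
    have := hkm c hc
    omega
  · intro c hc
    have := hkm c hc
    simpa using this

theorem EvCtx.scStep (h : EvCtx V P N m g) {k : γ → ℕ} {u K : γ → List ℕ} (hk : PF V k)
    (hkm : ∀ c, V c → k c + 2 < m c) (hu : EvG V P m g u) (hK : EvG V P m g K) :
    EvG V P m g (fun c => Vale.Agent.P319.scStep (P c) (g c) (m c) (k c) (u c) (K c)) := by
  unfold Vale.Agent.P319.scStep
  have hp1 := PF.sub h.hP (PF.const 1)
  refine h.pow (h.add hK (h.add (h.scMul hk hkm hK hK) (h.scMul hk hkm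
    (h.subst (scPF_W h.hm h.hmB hk) hu (fun c hc => scpf_W_lt ?_)) (h.scMul hk hkm hK hu)))) hp1
  have := hkm c hc
  omega

theorem EvCtx.scK (h : EvCtx V P N m g) {k : γ → ℕ} {u : γ → List ℕ} (hk : PF V k)
    (hkm : ∀ c, V c → k c + 2 < m c) (hu : EvG V P m g u) :
    EvG V P m g (fun c => Vale.Agent.P319.scK (P c) (g c) (m c) (k c) (u c)) := by
  unfold Vale.Agent.P319.scK
  have h' := h.comp_fst (W := fun x : γ × List ℕ => V x.1 ∧
    VecK (P x.1) (((g x.1).length - 1) ^ (m x.1)) x.2) (fun _ h => h.1)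
  refine h.scIter (F := fun c K => Vale.Agent.P319.scStep (P c) (g c) (m c) (k c) (u c) K)
    (j := fun c => ((g c).length - 1) ^ 2) ?_ (PF.powNat h.n (PF.const 2) (PolyB.const 2))
    (PolyB.pow h.nB 2) (h.scEq hk (fun c hc => by have := hkm c hc; omega))
  exact h'.scStep (PF.comp_fst hk (fun _ h => h.1)) (fun x hx => hkm _ hx.1)
    (hu.comp_fst (fun _ h => h.1)) (K := fun x => x.2) ⟨PF.snd PF.id, fun x hx => hx.2⟩

theorem EvCtx.scG (h : EvCtx V P N m g) {i τ : γ → ℕ} (hi : PF V i)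
    (him : ∀ c, V c → i c < m c) (hτ : PF V τ) :
    EvG V P m g (fun c => Vale.Agent.P319.scG (P c) (g c) (m c) (i c) (τ c)) := by
  unfold Vale.Agent.P319.scG
  have h' := h.comp_fst (W := fun x : γ × List ℕ => V x.1 ∧
    VecK (P x.1) (((g x.1).length - 1) ^ (m x.1)) x.2) (fun _ h => h.1)
  refine h.scIter (F := fun c w => addL (P c) (evOps (P c) (g c) (m c)).one
    ((evOps (P c) (g c) (m c)).mul (smulL (P c) (τ c) (evX (P c) (g c) (m c) (i c))) w))
    (j := fun c => (g c).length - 1) ?_ h.n h.nB h.one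
  exact h'.add h'.one (h'.mul (h'.smul (h'.x (PF.comp_fst hi (fun _ h => h.1))
    (fun x hx => him _ hx.1)) (PF.comp_fst hτ (fun _ h => h.1))) (w := fun x => x.2)
    ⟨PF.snd PF.id, fun x hx => hx.2⟩)

theorem EvCtx.scB0 (h : EvCtx V P N m g) {k τ : γ → ℕ} {K : γ → List ℕ} (hk : PF V k)
    (hkm : ∀ c, V c → k c + 1 < m c) (hK : EvG V P m g K) (hτ : PF V τ) :
    EvG V P m g (fun c => Vale.Agent.P319.scB0 (P c) (g c) (m c) (k c) (K c) (τ c)) := by
  unfold Vale.Agent.P319.scB0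
  have hk1 := PF.add hk (PF.const 1)
  exact h.tr hk1 (h.mul hK (h.scG hk1 hkm hτ))

theorem EvCtx.scT (h : EvCtx V P N m g) {k κ : γ → ℕ} {u b : γ → List ℕ} (hk : PF V k)
    (hkm : ∀ c, V c → k c + 1 < m c) (hκ : PF V κ) (hu : EvG V P m g u) (hb : EvG V P m g b) :
    EvG V P m g (fun c => Vale.Agent.P319.scT (P c) (g c) (m c) (k c) (κ c) (u c) (b c)) := by
  unfold Vale.Agent.P319.scT
  have hk1 := PF.add hk (PF.const 1)
  exact h.smul (h.S hk1 hkm hu hb) (scPF_invMod h.hP hκ (fun c hc => (h.hp c hc).one_lt))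

theorem EvCtx.scTiter (h : EvCtx V P N m g) {k κ τ j : γ → ℕ} {u : γ → List ℕ} (hk : PF V k)
    (hkm : ∀ c, V c → k c + 2 < m c) (hκ : PF V κ) (hτ : PF V τ) (hu : EvG V P m g u)
    (hj : PF V j) (hjB : PolyB V j) :
    EvG V P m g (fun c => (Vale.Agent.P319.scT (P c) (g c) (m c) (k c) (κ c) (u c))^[j c]
      (Vale.Agent.P319.scB0 (P c) (g c) (m c) (k c)
        (Vale.Agent.P319.scK (P c) (g c) (m c) (k c) (u c)) (τ c))) := by
  have hkm1 : ∀ c, V c → k c + 1 < m c := fun c hc => by have := hkm c hc; omega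
  have h' := h.comp_fst (W := fun x : γ × List ℕ => V x.1 ∧
    VecK (P x.1) (((g x.1).length - 1) ^ (m x.1)) x.2) (fun _ h => h.1)
  refine h.scIter (F := fun c b => Vale.Agent.P319.scT (P c) (g c) (m c) (k c) (κ c) (u c) b)
    ?_ hj hjB (h.scB0 hk hkm1 (h.scK hk hkm hu) hτ)
  exact h'.scT (PF.comp_fst hk (fun _ h => h.1)) (fun x hx => hkm1 _ hx.1)
    (PF.comp_fst hκ (fun _ h => h.1)) (hu.comp_fst (fun _ h => h.1)) (b := fun x => x.2)
    ⟨PF.snd PF.id, fun x hx => hx.2⟩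

/-- lists of vectors built with `flatMap` over a range -/
theorem EvCtx.flatRange (h : EvCtx V P N m g) {n : γ → ℕ} {f : γ → ℕ → List (List ℕ)}
    (hn : PF V n) (hnB : PolyB V n)
    (hf : EvL (fun x : γ × ℕ => V x.1 ∧ x.2 < n x.1) (fun x => P x.1) (fun x => m x.1)
      (fun x => g x.1) (fun x => f x.1 x.2)) :
    EvL V P m g (fun c => (List.range (n c)).flatMap (f c)) :=
  h.flatMap (W := fun x : γ × ℕ => V x.1 ∧ x.2 < n x.1) (PF.range hn hnB) hf
    (fun c hc a ha => ⟨hc, List.mem_range.1 ha⟩)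

theorem EvCtx.scCov (h : EvCtx V P N m g) {k : γ → ℕ} {u : γ → List ℕ} (hk : PF V k)
    (hkm : ∀ c, V c → k c + 2 < m c) (hu : EvG V P m g u) :
    EvL V P m g (fun c => Vale.Agent.P319.scCov nr (P c) (N c) (g c) (m c) (k c) (u c)) := by
  unfold Vale.Agent.P319.scCov
  have hl : PF V (fun c => (g c).length) := PF.length h.hg
  have hlB : PolyB V (fun c => (g c).length) := PolyB.length h.hg
  -- the loop over `τ`
  refine h.flatRange (n := fun c => (g c).length ^ 3)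
    (PF.powNat hl (PF.const 3) (PolyB.const 3)) (PolyB.pow hlB 3) ?_
  have h1 := h.comp_fst (W := fun x : γ × ℕ => V x.1 ∧ x.2 < (g x.1).length ^ 3) (fun _ h => h.1)
  -- the loop over `κ`
  refine h1.flatRange (n := fun x => (g x.1).length) (PF.length h1.hg) (PolyB.length h1.hg) ?_
  have h2 := h1.comp_fst (W := fun x : (γ × ℕ) × ℕ => (V x.1.1 ∧ x.1.2 < (g x.1.1).length ^ 3) ∧
    x.2 < (g x.1.1).length) (fun _ h => h.1)
  -- the loop over `j`
  refine h2.flatRange (n := fun x => (g x.1.1).length) (PF.length h2.hg) (PolyB.length h2.hg) ?_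
  have h3 := h2.comp_fst (W := fun x : ((γ × ℕ) × ℕ) × ℕ =>
    ((V x.1.1.1 ∧ x.1.1.2 < (g x.1.1.1).length ^ 3) ∧ x.1.2 < (g x.1.1.1).length) ∧
    x.2 < (g x.1.1.1).length) (fun _ h => h.1)
  -- the loop over `r`
  refine h3.flatRange (n := fun x => (g x.1.1.1).length) (PF.length h3.hg) (PolyB.length h3.hg) ?_
  have h4 := h3.comp_fst (W := fun x : (((γ × ℕ) × ℕ) × ℕ) × ℕ =>
    (((V x.1.1.1.1 ∧ x.1.1.1.2 < (g x.1.1.1.1).length ^ 3) ∧ x.1.1.2 < (g x.1.1.1.1).length) ∧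
    x.1.2 < (g x.1.1.1.1).length) ∧ x.2 < (g x.1.1.1.1).length) (fun _ h => h.1)
  have hrB := (PolyB.length h4.hg).of_le (f := fun x => x.2) (fun x hx => hx.2.le)
  have hprime : PF (fun x : (((γ × ℕ) × ℕ) × ℕ) × ℕ =>
    (((V x.1.1.1.1 ∧ x.1.1.1.2 < (g x.1.1.1.1).length ^ 3) ∧ x.1.1.2 < (g x.1.1.1.1).length) ∧
    x.1.2 < (g x.1.1.1.1).length) ∧ x.2 < (g x.1.1.1.1).length)
      (fun x => decide (primeB x.2 = true)) := by
    refine (PF.primeB (PF.snd PF.id) hrB).congr ?_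
    intro y _
    cases primeB y.2 <;> simp
  refine EvL.ite (q := fun x : (((γ × ℕ) × ℕ) × ℕ) × ℕ => primeB x.2 = true) hprime ?_ EvL.nil
  have h5 := h4.mono (W := fun x : (((γ × ℕ) × ℕ) × ℕ) × ℕ =>
    ((((V x.1.1.1.1 ∧ x.1.1.1.2 < (g x.1.1.1.1).length ^ 3) ∧ x.1.1.2 < (g x.1.1.1.1).length) ∧
    x.1.2 < (g x.1.1.1.1).length) ∧ x.2 < (g x.1.1.1.1).length) ∧ primeB x.2 = true)
    (fun _ h => h.1)
  refine h5.cycTestsN (r := fun x => x.2) (PF.snd PF.id) (hrB.mono (fun _ h => h.1))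
    (fun x hx => ((primeB_iff _).1 hx.2).two_le) ?_
  have h6 := h5.comp_fst (W := fun x : ((((γ × ℕ) × ℕ) × ℕ) × ℕ) × ℕ =>
    (((((V x.1.1.1.1.1 ∧ x.1.1.1.1.2 < (g x.1.1.1.1.1).length ^ 3) ∧
    x.1.1.1.2 < (g x.1.1.1.1.1).length) ∧ x.1.1.2 < (g x.1.1.1.1.1).length) ∧
    x.1.2 < (g x.1.1.1.1.1).length) ∧ primeB x.1.2 = true) ∧ x.2 < x.1.2) (fun _ h => h.1)
  have hk6 : PF (fun x : ((((γ × ℕ) × ℕ) × ℕ) × ℕ) × ℕ =>
    (((((V x.1.1.1.1.1 ∧ x.1.1.1.1.2 < (g x.1.1.1.1.1).length ^ 3) ∧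
    x.1.1.1.2 < (g x.1.1.1.1.1).length) ∧ x.1.1.2 < (g x.1.1.1.1.1).length) ∧
    x.1.2 < (g x.1.1.1.1.1).length) ∧ primeB x.1.2 = true) ∧ x.2 < x.1.2)
      (fun x => k x.1.1.1.1.1) :=
    PF.comp (W := V) (g := k) (f := fun x : ((((γ × ℕ) × ℕ) × ℕ) × ℕ) × ℕ => x.1.1.1.1.1) hk
      (PF.fst (PF.fst (PF.fst (PF.fst (PF.fst PF.id))))) (fun x hx => hx.1.1.1.1.1.1)
  have hu6 : EvG (fun x : ((((γ × ℕ) × ℕ) × ℕ) × ℕ) × ℕ =>
    (((((V x.1.1.1.1.1 ∧ x.1.1.1.1.2 < (g x.1.1.1.1.1).length ^ 3) ∧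
    x.1.1.1.2 < (g x.1.1.1.1.1).length) ∧ x.1.1.2 < (g x.1.1.1.1.1).length) ∧
    x.1.2 < (g x.1.1.1.1.1).length) ∧ primeB x.1.2 = true) ∧ x.2 < x.1.2)
      (fun x => P x.1.1.1.1.1) (fun x => m x.1.1.1.1.1) (fun x => g x.1.1.1.1.1)
      (fun x => u x.1.1.1.1.1) :=
    ⟨PF.comp (W := V) (g := u) (f := fun x : ((((γ × ℕ) × ℕ) × ℕ) × ℕ) × ℕ => x.1.1.1.1.1) hu.1
      (PF.fst (PF.fst (PF.fst (PF.fst (PF.fst PF.id))))) (fun x hx => hx.1.1.1.1.1.1),
      fun x hx => hu.2 _ hx.1.1.1.1.1.1⟩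
  refine h6.scTiter (k := fun x => k x.1.1.1.1.1) (κ := fun x => x.1.1.1.2)
    (τ := fun x => x.1.1.1.1.2) (j := fun x => x.1.1.2 * x.2) hk6
    (fun x hx => hkm _ hx.1.1.1.1.1.1) (PF.snd (PF.fst (PF.fst (PF.fst PF.id))))
    (PF.snd (PF.fst (PF.fst (PF.fst (PF.fst PF.id))))) hu6
    (PF.mul (PF.snd (PF.fst (PF.fst PF.id))) (PF.snd PF.id)) ?_
  refine PolyB.of_le (PolyB.mul (PolyB.length h6.hg) (PolyB.length h6.hg)) (fun x hx => ?_)
  have e1 := hx.1.1.1.2
  have e2 := hx.1.1.2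
  have e3 := hx.2
  exact Nat.mul_le_mul e1.le (by omega)

theorem EvCtx.scTests1 (h : EvCtx V P N m g) {e : γ → List ℕ} (he : EvG V P m g e) :
    EvL V P m g (fun c => Vale.Agent.P319.scTests1 nr (P c) (N c) (g c) (m c) (e c)) := by
  unfold Vale.Agent.P319.scTests1
  refine EvL.append ?_ ?_
  · refine h.flatRange h.hm h.hmB ?_
    have h1 := h.comp_fst (W := fun x : γ × ℕ => V x.1 ∧ x.2 < m x.1) (fun _ h => h.1)
    have he1 := he.comp_fst (W := fun x : γ × ℕ => V x.1 ∧ x.2 < m x.1) (fun _ h => h.1)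
    refine h1.map (W := fun x : (γ × ℕ) × ℕ => (V x.1.1 ∧ x.1.2 < m x.1.1) ∧ x.2 < m x.1.1)
      (f := fun x j => evSubst (P x.1) (g x.1) (m x.1) (scU (m x.1) x.2 j) (e x.1))
      (PF.range h1.hm h1.hmB) ?_ (fun c hc a ha => ⟨hc, List.mem_range.1 ha⟩)
    have h2 := h1.comp_fst (W := fun x : (γ × ℕ) × ℕ => (V x.1.1 ∧ x.1.2 < m x.1.1) ∧
      x.2 < m x.1.1) (fun _ h => h.1)
    exact h2.subst (scPF_U h2.hm h2.hmB (PF.snd (PF.fst PF.id)) (PF.snd PF.id))
      (he1.comp_fst (fun _ h => h.1)) (fun x hx => scpf_U_lt hx.2)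
  · refine h.flatRange (n := fun c => m c - 2) (PF.sub h.hm (PF.const 2))
      (PolyB.of_le h.hmB (fun _ _ => Nat.sub_le _ _)) ?_
    have h1 := h.comp_fst (W := fun x : γ × ℕ => V x.1 ∧ x.2 < m x.1 - 2) (fun _ h => h.1)
    have he1 := he.comp_fst (W := fun x : γ × ℕ => V x.1 ∧ x.2 < m x.1 - 2) (fun _ h => h.1)
    refine h1.scCov (k := fun x => x.2) (PF.snd PF.id) (fun x hx => by have := hx.2; omega)
      (h1.subst (scPF_F h1.hm h1.hmB (PF.add (PF.snd PF.id) (PF.const 1))) he1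
        (fun x hx => scpf_F_lt ?_))
    have := hx.2
    omega

theorem EvCtx.scTestsN (h : EvCtx V P N m g) (hm6 : ∀ c, V c → 6 ≤ m c)
    {E : γ → List (List ℕ)} (hE : EvL V P m g E) :
    EvL V P m g (fun c => Vale.Agent.P319.scTestsN nr (P c) (N c) (g c) (m c) (E c)) := by
  unfold Vale.Agent.P319.scTestsN
  refine EvL.append (h.testsN hE) (EvL.append ?_ ?_)
  · refine EvL.ite (q := fun c => 4 ≤ (g c).length) (PF.decide_le (PF.const 4) (PF.length h.hg))
      ?_ EvL.nil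
    have h1 := h.mono (W := fun c => V c ∧ 4 ≤ (g c).length) (fun _ h => h.1)
    refine h1.cycTestsN (r := fun _ => 3) (b := fun c i => evX (P c) (g c) (m c) i) (PF.const 3)
      (PolyB.const 3) (fun _ _ => by omega) ?_
    have h2 := h1.comp_fst (W := fun x : γ × ℕ => (V x.1 ∧ 4 ≤ (g x.1).length) ∧ x.2 < 3)
      (fun _ h => h.1)
    exact h2.x (i := fun x => x.2) (PF.snd PF.id) (fun x hx => by
      have h3 := hx.2
      have h4 := hm6 _ hx.1.1
      show x.2 < m x.1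
      omega)
  · refine h.flatMap (W := fun x : γ × List ℕ => V x.1 ∧
      VecK (P x.1) (((g x.1).length - 1) ^ (m x.1)) x.2)
      (f := fun c e => Vale.Agent.P319.scTests1 nr (P c) (N c) (g c) (m c) e)
      hE.1 ?_ (fun c hc a ha => ⟨hc, hE.2 c hc a ha⟩)
    exact (h.comp_fst (fun _ h => h.1)).scTests1 (e := fun x => x.2)
      ⟨PF.snd PF.id, fun x hx => hx.2⟩

/-- the invariant is preserved by a round -/
theorem EvCtx.scRound_inv (h : EvCtx V P N m g) (hm6 : ∀ c, V c → 6 ≤ m c) (c : γ) (hc : V c)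
    {E : List (List ℕ)} (hE : EvI (P c) (g c) (m c) E) :
    EvI (P c) (g c) (m c) (scRoundN nr (P c) (N c) (g c) (m c) E) := by
  have : Fact (P c).Prime := ⟨h.hp c hc⟩
  have h1 := (h.comp_fst (W := fun x : γ × List (List ℕ) => V x.1 ∧ EvI (P x.1) (g x.1) (m x.1) x.2)
    (fun _ h => h.1)).scTestsN (nr := nr) (fun x hx => hm6 _ hx.1) (E := fun x => x.2)
    ⟨PF.snd PF.id, fun x hx => hx.2.1⟩
  unfold scRoundN
  exact evpf_foldl_inv (h.hgm c hc).1 (h.hgm c hc).2 _ (h1.2 (c, E) ⟨hc, hE⟩) hE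

theorem EvCtx.scRound (h : EvCtx V P N m g) (hm6 : ∀ c, V c → 6 ≤ m c) {E : γ → List (List ℕ)}
    (hE : PF V E) (hEI : ∀ c, V c → EvI (P c) (g c) (m c) (E c)) :
    PF V (fun c => scRoundN nr (P c) (N c) (g c) (m c) (E c)) := by
  unfold scRoundN
  exact h.foldRefine (h.scTestsN hm6 ⟨hE, fun c hc => (hEI c hc).1⟩) hE hEI

theorem EvCtx.scFinal (h : EvCtx V P N m g) (hm6 : ∀ c, V c → 6 ≤ m c) :
    PF V (fun c => scFinalN nr (P c) (N c) (g c) (m c)) := by
  have hinv : ∀ c, V c → ∀ i, EvI (P c) (g c) (m c) ((scRoundN nr (P c) (N c) (g c) (m c))^[i]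
      [(evOps (P c) (g c) (m c)).one]) := by
    intro c hc i
    induction i with
    | zero =>
      refine ⟨?_, ?_⟩
      · intro w hw
        rw [Function.iterate_zero_apply, List.mem_singleton] at hw
        rw [hw]; exact h.one.2 c hc
      · rw [Function.iterate_zero_apply]
        simpa using h.k1 c hc
    | succ i ih =>
      rw [Function.iterate_succ_apply']
      exact h.scRound_inv hm6 c hc ih
  unfold scFinalN
  refine PF.iterate (V := V) (N := fun c => ((g c).length - 1) ^ (m c))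
    (s := fun c => [(evOps (P c) (g c) (m c)).one])
    (step := fun c E => scRoundN nr (P c) (N c) (g c) (m c) E)
    (W := fun x : γ × List (List ℕ) => V x.1 ∧ EvI (P x.1) (g x.1) (m x.1) x.2) ?_ h.k h.kB
    (PF.cons h.one.1 (PF.const []))
    (fun c => ((g c).length - 1) ^ (m c) *
      ((((g c).length - 1) ^ (m c) * (Nat.size (P c) + 2) + 1) + 1) + 1)
    (PolyB.add (PolyB.mul h.kB (PolyB.add (PolyB.bd h.hP h.kB) (PolyB.const 1))) (PolyB.const 1))
    (fun c hc i _ => ⟨hc, hinv c hc i⟩) (fun c hc i _ => evpf_I_sz (hinv c hc i))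
  exact (h.comp_fst (W := fun x : γ × List (List ℕ) => V x.1 ∧ EvI (P x.1) (g x.1) (m x.1) x.2)
    (fun _ h => h.1)).scRound (fun x hx => hm6 _ hx.1) (PF.snd PF.id) (fun x hx => hx.2)

end

section
variable {γ : Type} [Enc γ] {V : γ → Prop}

theorem scPF_M {N : γ → ℕ} {l : γ → List ℕ} (hN : PF V N) (hNB : PolyB V N) (hl : PF V l) :
    PF V (fun c => scM (N c) (l c)) ∧ PolyB V (fun c => scM (N c) (l c)) := by
  have hn : PF V (fun c => (l c).length - 1) := PF.sub (PF.length hl) (PF.const 1)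
  have hsz : PF V (fun c => Nat.size (N c)) := PF.natSize hN
  have hszB : PolyB V (fun c => Nat.size (N c)) := PolyB.size hN
  unfold scM
  refine ⟨PF.length ?_, ?_⟩
  · refine PF.filter (W := fun x : γ × ℕ => V x.1 ∧ x.2 < Nat.size (N x.1))
      (f := fun c k => decide (powClamp (N c) ((l c).length - 1) (k + 1) ≤ N c)) ?_
      (PF.range hsz hszB) (fun c hc a ha => ⟨hc, List.mem_range.1 ha⟩)
    have hN' : PF (fun x : γ × ℕ => V x.1 ∧ x.2 < Nat.size (N x.1)) (fun x => N x.1) :=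
      PF.comp_fst hN (fun _ h => h.1)
    have hNB' : PolyB (fun x : γ × ℕ => V x.1 ∧ x.2 < Nat.size (N x.1)) (fun x => N x.1) :=
      PolyB.comp_fst hNB (fun _ h => h.1)
    have hn' : PF (fun x : γ × ℕ => V x.1 ∧ x.2 < Nat.size (N x.1))
      (fun x => (l x.1).length - 1) := PF.comp_fst hn (fun _ h => h.1)
    have hszB' : PolyB (fun x : γ × ℕ => V x.1 ∧ x.2 < Nat.size (N x.1))
      (fun x => Nat.size (N x.1)) := PolyB.comp_fst hszB (fun _ h => h.1)
    refine PF.decide_le (PF.powClamp hN' hn' (PF.add (PF.snd PF.id) (PF.const 1)) hNB' ?_) hN'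
    exact PolyB.of_le hszB' (fun x hx => hx.2)
  · refine PolyB.of_le hszB (fun c _ => ?_)
    refine (List.length_filter_le _ _).trans ?_
    simp

/-- (PF) the tests are computable in polynomial time -/
theorem scPF_testsForN {nr : ℕ → ℕ → ℕ → List (List ℕ)} [hnr : NrOK nr]
    {P N : γ → ℕ} {l : γ → List ℕ} (hP : PF V P) (hN : PF V N) (hl : PF V l)
    (hp : ∀ c, V c → (P c).Prime) (hNB : PolyB V N)
    (hlm : ∀ c, V c → MonL (P c) (l c) ∧ 2 ≤ (l c).length) :
    PF V (fun c => scTestsForN nr (P c) (N c) (l c)) := by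
  have hn : PF V (fun c => (l c).length - 1) := PF.sub (PF.length hl) (PF.const 1)
  obtain ⟨hm, hmB⟩ := scPF_M hN hNB hl
  unfold scTestsForN
  refine PF.ite (PF.decide_and (PF.decide_le (PF.const 3) (PF.length hl))
    (PF.decide_and (PF.decide_le (PF.const 6) hm)
    (PF.decide_le (PF.powClamp hN hn hm hNB hmB) hN))) ?_ (PF.const [])
  have h : EvCtx (fun c => V c ∧ (3 ≤ (l c).length ∧ 6 ≤ scM (N c) (l c) ∧
      powClamp (N c) ((l c).length - 1) (scM (N c) (l c)) ≤ N c)) P N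
      (fun c => scM (N c) (l c)) l := by
    refine ⟨hP.mono (fun _ h => h.1), hN.mono (fun _ h => h.1), hm.mono (fun _ h => h.1),
      hl.mono (fun _ h => h.1), hNB.mono (fun _ h => h.1), hmB.mono (fun _ h => h.1),
      fun c hc => hp c hc.1, fun c hc => hlm c hc.1, ?_⟩
    intro c hc
    have h1 := hc.2.2.2
    unfold powClamp at h1
    rw [PFRoots_powClamp_eq _ _ _ (by have := hc.2.1; omega) h1] at h1
    exact h1
  refine PF.map (W := fun x => V x.1 ∧ (3 ≤ (l x.1).length ∧ 6 ≤ scM (N x.1) (l x.1) ∧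
      powClamp (N x.1) ((l x.1).length - 1) (scM (N x.1) (l x.1)) ≤ N x.1))
    (f := fun c e => evDiag (P c) (l c) (scM (N c) (l c)) e) ?_
    (h.scFinal (fun c hc => hc.2.2.1)) (fun c hc _ _ => hc)
  exact (h.comp_fst (fun _ h => h)).diag (PF.snd PF.id)

end

end Vale.Agent.P319

namespace Vale.Agent.P319.SC

/-- **ALG-PF** -/
theorem pf : PFStmt := by
  intro nr _ γ _ V P N l hP hN hl hp hNB hlm
  exact scPF_testsForN hP hN hl hp hNB hlm

end Vale.Agent.P319.SC
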